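import Vale.Agent.P057G.Tri
import Mathlib.LinearAlgebra.Matrix.Block

/-!
Poisson summation in a fibre, positivity, unipotent changes of variables, splitting of series.
-/

open Matrix Finset Filter
open scoped Real Topology
open Vale.Agent.P267.H775

namespace Vale.Agent.P057G

noncomputable section

variable {ι κ : Type*} [Fintype ι] [Fintype κ]

/-- a centred Gaussian has a positive Fourier transform -/
theorem hasSum_tw_zero [DecidableEq ι] {A : Matrix ι ι ℝ} (hA : A.PosDef) (ξ : ι → ℝ) :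
    HasSum (fun z : ι → ℤ => (gs A (toR z) : ℂ) * ee (ξ ⬝ᵥ toR z))
      ((vol A * th A⁻¹ ξ : ℝ) : ℂ) := by
  have h := poisson_tw hA 0 ξ
  simp only [dotProduct_zero, ee_zero, mul_one, sub_zero] at h
  have h2 := Complex.hasSum_ofReal.2 ((hasSum_th hA.inv ξ).mul_left (vol A))
  rw [← h.unique h2]
  have h3 := summable_gs hA 0
  simp only [sub_zero] at h3
  exact (summable_mul_cx h3 (fun z => (gs_pos _ _).le) (C := 1) fun z => (norm_ee _).le).hasSum

theorem summable_th_mul [DecidableEq κ] {Ω : Type*} {w : Ω → ℝ} (hw : Summable w)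
    (h0 : ∀ y, 0 ≤ w y) {B : Matrix κ κ ℝ} (hB : B.PosDef) (p : Ω → κ → ℝ) :
    Summable fun y => w y * th B (p y) :=
  summable_mul_real hw h0 (C := th B 0) fun y => by
    rw [abs_of_nonneg (th_nonneg _ _)]; exact th_le_th_zero hB _

/-- Poisson summation in the fibre over a weighted base, against a bounded function -/
theorem hasSum_fib [DecidableEq κ] {Ω : Type*} {w : Ω → ℝ} (hw : Summable w)
    (h0 : ∀ y, 0 ≤ w y) {f : Ω → ℂ} {C : ℝ} (hf : ∀ y, ‖f y‖ ≤ C) {B : Matrix κ κ ℝ}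
    (hB : B.PosDef) (p : Ω → κ → ℝ) :
    HasSum (fun k : κ → ℤ => ((vol B * gs B⁻¹ (toR k) : ℝ) : ℂ) *
        ∑' y, (w y : ℂ) * (f y * ee (toR k ⬝ᵥ p y)))
      (∑' y, (w y : ℂ) * (f y * th B (p y))) := by
  set F : (κ → ℤ) × Ω → ℂ := fun q =>
    ((vol B * gs B⁻¹ (toR q.1) : ℝ) : ℂ) * ((w q.2 : ℂ) * (f q.2 * ee (toR q.1 ⬝ᵥ p q.2)))
  have hg : Summable fun k : κ → ℤ => vol B * gs B⁻¹ (toR k) := by
    have := (summable_gs hB.inv 0).mul_left (vol B)
    simpa only [sub_zero] using this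
  have hg0 : ∀ k : κ → ℤ, 0 ≤ vol B * gs B⁻¹ (toR k) := fun k =>
    (mul_pos (vol_pos hB) (gs_pos _ _)).le
  have hF : Summable F := by
    have h1 := (Summable.mul_of_nonneg hg (hw.mul_right |C|) hg0
      fun y => mul_nonneg (h0 y) (abs_nonneg C))
    refine h1.of_norm_bounded fun q => ?_
    simp only [F, norm_mul, norm_ee, mul_one, Complex.norm_real, Real.norm_of_nonneg (hg0 _),
      Real.norm_of_nonneg (h0 _)]
    exact mul_le_mul_of_nonneg_left
      (mul_le_mul_of_nonneg_left ((hf _).trans (le_abs_self C)) (h0 _)) (hg0 _)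
  have h1 : HasSum (fun k : κ → ℤ => ∑' y, F (k, y)) (∑' q, F q) :=
    hF.hasSum.prod_fiberwise fun k => (hF.prod_factor k).hasSum
  have h2 : HasSum (fun y => (w y : ℂ) * (f y * th B (p y))) (∑' q, F q) := by
    have h3 : HasSum (fun q : Ω × (κ → ℤ) => F q.swap) (∑' q, F q) :=
      (Equiv.prodComm _ _).hasSum_iff.2 hF.hasSum
    refine h3.prod_fiberwise fun y => ?_
    have h4 := ((poisson hB (p y)).mul_left (f y)).mul_left (w y : ℂ)
    refine (HasSum.congr_fun h4 fun k => ?_)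
    simp only [F, Prod.swap]; ring
  rw [h2.tsum_eq]
  refine HasSum.congr_fun h1 fun k => ?_
  simp only [F]
  rw [tsum_mul_left]

/-- the mass of a linear fibre over a centred Gaussian, as a positive dual series -/
theorem hasSum_fib_lin [DecidableEq ι] [DecidableEq κ] {A : Matrix ι ι ℝ} (hA : A.PosDef)
    {B : Matrix κ κ ℝ} (hB : B.PosDef) (L : Matrix κ ι ℝ) :
    HasSum (fun k : κ → ℤ => vol B * gs B⁻¹ (toR k) * (vol A * th A⁻¹ (Lᵀ *ᵥ toR k)))
      (∑' x : ι → ℤ, gs A (toR x) * th B (L *ᵥ toR x)) := by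
  have h3 := summable_gs hA 0
  simp only [sub_zero] at h3
  have h := hasSum_fib h3 (fun z => (gs_pos _ _).le) (f := fun _ => 1) (C := 1) (by simp) hB
    fun x => L *ᵥ toR x
  simp only [one_mul] at h
  refine Complex.hasSum_ofReal.1 ?_
  rw [Complex.ofReal_tsum]
  simp only [Complex.ofReal_mul (gs A _)]
  refine HasSum.congr_fun h fun k => ?_
  rw [Complex.ofReal_mul (vol B * _), ← (hasSum_tw_zero hA _).tsum_eq]
  congr 2; funext x
  rw [dotProduct_mulVec, ← mulVec_transpose]

/-- deleting a linear fibre does not increase the normalised mass -/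
theorem fib_ge [DecidableEq ι] [DecidableEq κ] {A : Matrix ι ι ℝ} (hA : A.PosDef)
    {B : Matrix κ κ ℝ} (hB : B.PosDef) (L : Matrix κ ι ℝ) :
    vol B * th A 0 ≤ ∑' x : ι → ℤ, gs A (toR x) * th B (L *ᵥ toR x) := by
  have h := le_hasSum (hasSum_fib_lin hA hB L) 0 fun k _ =>
    mul_nonneg (mul_pos (vol_pos hB) (gs_pos _ _)).le (mul_nonneg (vol_pos hA).le (th_nonneg _ _))
  rwa [toR_zero, gs_zero, mul_one, mulVec_zero, ← th_zero_eq hA] at h

/-- unipotent matrices for a level function -/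
def Uni [DecidableEq ι] (lv : ι → ℕ) (L : Matrix ι ι ℝ) : Prop :=
  ∀ i j, ¬ lv j < lv i → L i j = (1 : Matrix ι ι ℝ) i j

theorem Uni.det [DecidableEq ι] {lv : ι → ℕ} {L : Matrix ι ι ℝ} (h : Uni lv L) : L.det = 1 := by
  have hb : Lᵀ.BlockTriangular lv := by
    intro i j hij
    rw [transpose_apply, h j i (by omega), one_apply_ne]
    rintro rfl; omega
  rw [← det_transpose, hb.det]
  refine prod_eq_one fun a _ => ?_
  have : Lᵀ.toSquareBlock lv a = 1 := by
    ext ⟨i, hi⟩ ⟨j, hj⟩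
    rw [toSquareBlock_def, of_apply, transpose_apply, h j i (by omega)]
    simp only [one_apply, Subtype.mk.injEq, eq_comm]
  rw [this, det_one]

theorem Uni.posDef [DecidableEq ι] {lv : ι → ℕ} {L G : Matrix ι ι ℝ} (h : Uni lv L)
    (hG : G.PosDef) : (Lᵀ * G * L).PosDef := by
  refine posDef_conj hG L (mulVec_injective_iff_isUnit.2 ?_)
  rw [isUnit_iff_isUnit_det, h.det]; exact isUnit_one

theorem vol_conj [DecidableEq ι] {L : Matrix ι ι ℝ} (h : L.det = 1) (G : Matrix ι ι ℝ) :
    vol (Lᵀ * G * L) = vol G := by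
  unfold vol
  rw [det_mul, det_mul, det_transpose, h, one_mul, mul_one]

/-- a centred unipotent fibre has mass at least the volume -/
theorem Uni.vol_le [DecidableEq ι] {lv : ι → ℕ} {L G : Matrix ι ι ℝ} (h : Uni lv L)
    (hG : G.PosDef) : vol G ≤ ∑' x : ι → ℤ, gs G (L *ᵥ toR x) := by
  have := vol_le_th_zero (h.posDef hG)
  rw [vol_conj h.det, th] at this
  simpa only [sub_zero, gs_conj] using this

/-- glue the coordinates inside and outside a predicate -/
def glue {A : Type*} {X : A → Type*} (p : A → Prop) [DecidablePred p]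
    (x : ∀ i : {i // p i}, X i) (y : ∀ i : {i // ¬ p i}, X i) : ∀ i, X i :=
  fun i => if h : p i then x ⟨i, h⟩ else y ⟨i, h⟩

theorem glue_pos {A : Type*} {X : A → Type*} {p : A → Prop} [DecidablePred p]
    (x : ∀ i : {i // p i}, X i) (y : ∀ i : {i // ¬ p i}, X i) {i : A} (h : p i) :
    glue p x y i = x ⟨i, h⟩ := dif_pos h

theorem glue_neg {A : Type*} {X : A → Type*} {p : A → Prop} [DecidablePred p]
    (x : ∀ i : {i // p i}, X i) (y : ∀ i : {i // ¬ p i}, X i) {i : A} (h : ¬ p i) :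
    glue p x y i = y ⟨i, h⟩ := dif_neg h

/-- splitting a series over a product along a predicate -/
theorem hasSum_glue {A : Type*} {X : A → Type*} (p : A → Prop) [DecidablePred p] {E : Type*}
    [NormedAddCommGroup E] [CompleteSpace E] {W : (∀ i, X i) → E} (hW : Summable W) :
    (∀ y, Summable fun x => W (glue p x y)) ∧
      HasSum (fun y => ∑' x, W (glue p x y)) (∑' z, W z) := by
  let e : (∀ i : {i // ¬ p i}, X i) × (∀ i : {i // p i}, X i) ≃ ∀ i, X i :=
    (Equiv.prodComm _ _).trans (Equiv.piEquivPiSubtypeProd p X).symm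
  have h1 : HasSum (W ∘ e) (∑' z, W z) := e.hasSum_iff.2 hW.hasSum
  have h2 : ∀ y, Summable fun x => W (glue p x y) := fun y => h1.summable.prod_factor y
  exact ⟨h2, h1.prod_fiberwise fun y => (h2 y).hasSum⟩

end

end Vale.Agent.P057G
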