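import Vale.Agent.P057G.Ms1

/-!
Multi-affine Gaussian systems: weights, masses, vertex fibres and top blocks.
-/

open Matrix Finset Filter
open scoped Real Topology
open Vale.Agent.P267.H775

namespace Vale.Agent.P057G

noncomputable section

/-- a system: integer variables sitting on faces, with a Gram matrix and a triangular map -/
structure MS (V ι : Type*) where
  fc : ι → Finset V
  lv : ι → ℕ
  G : Matrix ι ι ℝ
  p : (ι → ℝ) → ι → ℝ

variable {V ι : Type*} [DecidableEq ι]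

/-- affine in the coordinates of `r` -/
def Aff (r : Finset ι) (θ : (ι → ℝ) → ℝ) : Prop :=
  ∀ y, IsLinearMap ℝ fun x => θ (mix r x y) - θ (mix r 0 y)

/-- linear in the coordinates of `r` -/
def Lin (r : Finset ι) (θ : (ι → ℝ) → ℝ) : Prop := ∀ y, IsLinearMap ℝ fun x => θ (mix r x y)

theorem Lin.zero {r : Finset ι} {θ : (ι → ℝ) → ℝ} (h : Lin r θ) (y : ι → ℝ) :
    θ (mix r 0 y) = 0 := (h y).map_zero

theorem Lin.aff {r : Finset ι} {θ : (ι → ℝ) → ℝ} (h : Lin r θ) : Aff r θ := fun y => by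
  simpa only [h.zero y, sub_zero] using h y

theorem Aff.lin {r : Finset ι} {θ : (ι → ℝ) → ℝ} (h : Aff r θ) (h0 : ∀ y, θ (mix r 0 y) = 0) :
    Lin r θ := fun y => by simpa only [h0 y, sub_zero] using h y

theorem Aff.sum {r : Finset ι} {κ : Type*} (s : Finset κ) (c : κ → ℝ) {θ : κ → (ι → ℝ) → ℝ}
    (h : ∀ k ∈ s, Aff r (θ k)) : Aff r fun z => ∑ k ∈ s, c k * θ k z := by
  intro y
  constructor
  · intro a b
    simp only [← sum_sub_distrib, ← sum_add_distrib, ← mul_sub]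
    exact sum_congr rfl fun k hk => by rw [(h k hk y).map_add]; ring
  · intro a b
    simp only [← sum_sub_distrib, ← mul_sub, smul_eq_mul, mul_sum]
    refine sum_congr rfl fun k hk => ?_
    have := (h k hk y).map_smul a b
    simp only [smul_eq_mul] at this
    rw [this]; ring

theorem Lin.sum {r : Finset ι} {κ : Type*} (s : Finset κ) (c : κ → ℝ) {θ : κ → (ι → ℝ) → ℝ}
    (h : ∀ k ∈ s, Lin r (θ k)) : Lin r fun z => ∑ k ∈ s, c k * θ k z :=
  (Aff.sum s c fun k hk => (h k hk).aff).lin fun y =>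
    sum_eq_zero fun k hk => by rw [(h k hk).zero, mul_zero]

/-- the slope of an affine function along a coordinate -/
def slp (r : Finset ι) (θ : (ι → ℝ) → ℝ) (y : ι → ℝ) (j : ι) : ℝ :=
  θ (mix r (Pi.single j 1) y) - θ (mix r 0 y)

theorem Aff.put_eq {r s : Finset ι} (hs : s ⊆ r) {θ : (ι → ℝ) → ℝ} (h : Aff r θ) {y : ι → ℝ}
    (hy : ∀ i ∈ r, i ∉ s → y i = 0) (x : s → ℝ) :
    θ (put s x y) = θ (mix r 0 y) + ∑ j : s, slp r θ y j * x j := by
  have h1 : put s x y = mix r (∑ j : s, x j • (Pi.single (j : ι) (1 : ℝ) : ι → ℝ)) y := by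
    funext i
    by_cases hi : i ∈ s
    · rw [put_pos _ _ hi, mix_pos _ _ (hs hi), Finset.sum_apply,
        sum_eq_single_of_mem (⟨i, hi⟩ : s) (mem_univ _)]
      · simp
      · intro j _ hj
        have : i ≠ j := fun e => hj (Subtype.ext e.symm)
        simp [Pi.single_eq_of_ne this]
    · rw [put_neg _ _ hi]
      by_cases hr : i ∈ r
      · rw [mix_pos _ _ hr, hy i hr hi, Finset.sum_apply, sum_eq_zero]
        intro j _
        have : i ≠ j := fun e => hi (e ▸ j.2)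
        simp [Pi.single_eq_of_ne this]
      · rw [mix_neg _ _ hr]
  have h2 := map_sum (IsLinearMap.mk' _ (h y))
    (fun j : s => x j • (Pi.single (j : ι) (1 : ℝ) : ι → ℝ)) univ
  simp only [map_smul, IsLinearMap.mk'_apply, smul_eq_mul] at h2
  rw [h1, ← sub_eq_iff_eq_add', h2]
  exact sum_congr rfl fun j _ => mul_comm _ _

variable [Fintype ι] [DecidableEq V] (S : MS V ι)

namespace MS

/-- the indices whose face contains `v` -/
def st (v : V) : Finset ι := univ.filter fun i => v ∈ S.fc i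

omit [DecidableEq ι] in
theorem mem_st {v : V} {i : ι} : i ∈ S.st v ↔ v ∈ S.fc i := by simp [st]

/-- `i` may depend on `j` -/
def Dep (i j : ι) : Prop := S.fc j ⊆ S.fc i ∧ S.lv j < S.lv i

structure Ok : Prop where
  pd : S.G.PosDef
  orth : ∀ i j, S.G i j ≠ 0 → S.fc i = S.fc j ∧ S.lv i = S.lv j
  loc : ∀ i z z', (∀ j, S.Dep i j → z j = z' j) → S.p z i = S.p z' i
  aff : ∀ v i, v ∈ S.fc i → Aff (S.st v) fun z => S.p z i

/-- centred systems -/
structure Cen : Prop where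
  ne : ∀ i, (S.fc i).Nonempty
  zero : ∀ v i, v ∈ S.fc i → ∀ y, S.p (mix (S.st v) 0 y) i = 0

/-- the positions -/
def ps (z : ι → ℤ) : ι → ℝ := toR z - S.p (toR z)

/-- the weight of the subsystem on `q` -/
def wt (q : Finset ι) (z : ι → ℤ) : ℝ :=
  if ∀ i ∉ q, z i = 0 then gs S.G (msk q (S.ps z)) else 0

/-- the normalised mass of the subsystem on `q` -/
def mass (q : Finset ι) : ℝ := (∑' z, S.wt q z) / vl S.G q

/-- the unipotent matrix of the fibre over `v` -/
def lm (v : V) (y : ι → ℝ) : Matrix ι ι ℝ :=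
  1 - Matrix.of fun i j => slp (S.st v) (fun z => S.p z i) y j

/-- the Gram matrix of the fibre over `v` -/
def fg (q : Finset ι) (v : V) (y : ι → ℝ) : Matrix ↥(q ∩ S.st v) ↥(q ∩ S.st v) ℝ :=
  (blk (S.lm v y) _)ᵀ * blk S.G _ * blk (S.lm v y) _

/-- the centre of the fibre over `v` -/
def fcn (q : Finset ι) (v : V) (y : ι → ℝ) : ↥(q ∩ S.st v) → ℝ :=
  (blk (S.lm v y) _)⁻¹ *ᵥ fun i => S.p (mix (S.st v) 0 y) i

variable {S}

omit [DecidableEq V] in
theorem wt_nonneg (q : Finset ι) (z : ι → ℤ) : 0 ≤ S.wt q z := by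
  unfold wt; split_ifs; exacts [(gs_pos _ _).le, le_rfl]

omit [DecidableEq V] in
theorem wt_eq_zero {q : Finset ι} {z : ι → ℤ} {i : ι} (hi : i ∉ q) (hz : z i ≠ 0) :
    S.wt q z = 0 := if_neg fun h => hz (h i hi)

theorem Ok.sat (h : S.Ok) {q : Finset ι}
    (hq : ∀ i j, S.fc i = S.fc j → S.lv i = S.lv j → i ∈ q → j ∈ q) : Sat S.G q := by
  intro i j hi hj
  by_contra h0
  exact hj (hq i j (h.orth i j h0).1 (h.orth i j h0).2 hi)

theorem Ok.sat_st (h : S.Ok) (v : V) : Sat S.G (S.st v) :=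
  h.sat fun _ _ e _ hi => S.mem_st.2 (e ▸ S.mem_st.1 hi)

theorem Ok.summable (h : S.Ok) (q : Finset ι) : Summable (S.wt q) := by
  have ht : Tri S.lv fun z => msk q (S.p (toR z)) := by
    intro i z z' hz
    beta_reduce
    by_cases hi : i ∈ q
    · rw [msk_pos _ hi, msk_pos _ hi]
      exact h.loc i _ _ fun j hj => by rw [toR_apply, toR_apply, hz j hj.2]
    · rw [msk_neg _ hi, msk_neg _ hi]
  refine (ht.summable h.pd).of_nonneg_of_le (wt_nonneg q) fun z => ?_
  unfold wt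
  split_ifs with hz
  · refine le_of_eq ?_
    congr 1; funext i
    by_cases hi : i ∈ q
    · rw [msk_pos _ hi, Pi.sub_apply, msk_pos _ hi]; rfl
    · rw [msk_neg _ hi, Pi.sub_apply, msk_neg _ hi, toR_apply, hz i hi]; simp
  · exact (gs_pos _ _).le

theorem Ok.uni (h : S.Ok) (v : V) (y : ι → ℝ) (r : Finset ι) :
    Uni (fun i : r => S.lv i) (blk (S.lm v y) r) := by
  intro i j hij
  have : slp (S.st v) (fun z => S.p z i) y j = 0 := by
    refine sub_eq_zero.2 (h.loc i _ _ fun k hk => ?_)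
    have hkj : k ≠ j := by rintro rfl; exact hij hk.2
    simp only [mix, Pi.single_eq_of_ne hkj, Pi.zero_apply]
  simp only [blk, lm, submatrix_apply, Matrix.sub_apply, of_apply, this, sub_zero, one_apply,
    Subtype.ext_iff]

theorem Ok.fg_pos (h : S.Ok) (q : Finset ι) (v : V) (y : ι → ℝ) : (S.fg q v y).PosDef :=
  (h.uni v y _).posDef (posDef_blk h.pd _)

theorem Ok.vol_fg (h : S.Ok) (q : Finset ι) (v : V) (y : ι → ℝ) :
    vol (S.fg q v y) = vl S.G (q ∩ S.st v) := vol_conj (h.uni v y _).det _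

theorem Cen.fcn (h : S.Cen) (q : Finset ι) (v : V) (y : ι → ℝ) : S.fcn q v y = 0 := by
  have : (fun i : ↥(q ∩ S.st v) => S.p (mix (S.st v) 0 y) i) = 0 :=
    funext fun i => h.zero v i (S.mem_st.1 (mem_inter.1 i.2).2) y
  rw [MS.fcn, this, mulVec_zero]

omit [DecidableEq V] in
/-- reduction of a weight along an orthogonal set on which the rest does not depend -/
theorem wt_put (hG : S.G.IsHermitian) {q r : Finset ι} (hr : Sat S.G r) (y : ι → ℤ)
    (hy : ∀ i ∈ q ∩ r, y i = 0) (x : ↥(q ∩ r) → ℤ)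
    (hp : ∀ i ∈ q \ r, S.p (toR (put (q ∩ r) x y)) i = S.p (toR y) i) :
    S.wt q (put (q ∩ r) x y) =
      S.wt (q \ r) y * gs (blk S.G (q ∩ r)) fun i => S.ps (put (q ∩ r) x y) i := by
  by_cases hz : ∀ i ∉ q, y i = 0
  · have h1 : ∀ i ∉ q, put (q ∩ r) x y i = 0 := fun i hi => by
      rw [put_neg _ _ fun h => hi (mem_inter.1 h).1, hz i hi]
    have h2 : ∀ i ∉ q \ r, y i = 0 := fun i hi => by
      by_cases hq : i ∈ q
      · exact hy i (mem_inter.2 ⟨hq, by by_contra h; exact hi (Finset.mem_sdiff.2 ⟨hq, h⟩)⟩)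
      · exact hz i hq
    rw [wt, wt, if_pos h1, if_pos h2, gs_msk_split hG hr, mul_comm, gs_msk S.G (q ∩ r)]
    congr 2
    refine msk_congr fun i hi => ?_
    simp only [ps, Pi.sub_apply, hp i hi, toR_apply]
    rw [put_neg _ _ fun h => (Finset.mem_sdiff.1 hi).2 (mem_inter.1 h).2]
  · push Not at hz
    obtain ⟨i, hi, h0⟩ := hz
    rw [wt_eq_zero (q := q \ r) (fun h => hi (Finset.mem_sdiff.1 h).1) h0, zero_mul]
    exact wt_eq_zero hi (by rwa [put_neg _ _ fun h => hi (mem_inter.1 h).1])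

theorem Ok.pos_put (h : S.Ok) (q : Finset ι) (v : V) {y : ι → ℤ}
    (hy : ∀ i ∈ S.st v, i ∉ q → y i = 0) (x : ↥(q ∩ S.st v) → ℤ) :
    (fun i : ↥(q ∩ S.st v) => S.ps (put (q ∩ S.st v) x y) i) =
      blk (S.lm v (toR y)) _ *ᵥ (toR x - S.fcn q v (toR y)) := by
  rw [mulVec_sub, MS.fcn, mulVec_mulVec, mul_nonsing_inv _
    (by rw [(h.uni v _ _).det]; exact isUnit_one), one_mulVec]
  funext i
  have h1 := (h.aff v i (S.mem_st.1 (mem_inter.1 i.2).2)).put_eq (s := q ∩ S.st v)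
    inter_subset_right (y := toR y) (fun j hj hj2 => by
      rw [toR_apply, hy j hj fun hq => hj2 (mem_inter.2 ⟨hq, hj⟩), Int.cast_zero]) (toR x)
  have h2 : blk (S.lm v (toR y)) (q ∩ S.st v) = 1 - Matrix.of fun i j : ↥(q ∩ S.st v) =>
      slp (S.st v) (fun z => S.p z i) (toR y) j := by
    ext a b
    simp only [blk, lm, submatrix_apply, Matrix.sub_apply, of_apply, one_apply, Subtype.ext_iff]
  simp only [MS.ps, Pi.sub_apply, toR_put, put_coe]
  rw [h1, h2, sub_mulVec, one_mulVec]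
  simp only [Pi.sub_apply, mulVec, dotProduct, of_apply]
  ring

/-- the fibre over a vertex is a Gaussian lattice sum -/
theorem Ok.wt_fibre (h : S.Ok) (q : Finset ι) (v : V) (y : ι → ℤ)
    (hy : ∀ i ∈ q ∩ S.st v, y i = 0) (x : ↥(q ∩ S.st v) → ℤ) :
    S.wt q (put (q ∩ S.st v) x y) =
      S.wt (q \ S.st v) y * gs (S.fg q v (toR y)) (toR x - S.fcn q v (toR y)) := by
  rw [wt_put h.pd.1 (h.sat_st v) y hy x]
  · by_cases hz : ∀ i ∈ S.st v, i ∉ q → y i = 0
    · rw [h.pos_put q v hz, MS.fg, gs_conj]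
    · push Not at hz
      obtain ⟨i, -, hi, h0⟩ := hz
      rw [wt_eq_zero (q := q \ S.st v) (fun h => hi (Finset.mem_sdiff.1 h).1) h0, zero_mul,
        zero_mul]
  · intro i hi
    refine h.loc i _ _ fun j hj => ?_
    rw [toR_apply, toR_apply, put_neg]
    intro hj2
    exact (Finset.mem_sdiff.1 hi).2 (S.mem_st.2 (hj.1 (S.mem_st.1 (mem_inter.1 hj2).2)))

/-- a top block is a shifted Gaussian lattice sum -/
theorem Ok.wt_top (h : S.Ok) {q D : Finset ι} (hD : Sat S.G D)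
    (hd : ∀ i ∈ q, ∀ j ∈ q ∩ D, ¬ S.Dep i j) (y : ι → ℤ) (hy : ∀ i ∈ q ∩ D, y i = 0)
    (x : ↥(q ∩ D) → ℤ) :
    S.wt q (put (q ∩ D) x y) =
      S.wt (q \ D) y * gs (blk S.G (q ∩ D)) (toR x - fun i : ↥(q ∩ D) => S.p (toR y) i) := by
  have hp : ∀ i ∈ q, S.p (toR (put (q ∩ D) x y)) i = S.p (toR y) i := fun i hi =>
    h.loc i _ _ fun j hj => by rw [toR_apply, toR_apply, put_neg _ _ fun h2 => hd i hi j h2 hj]
  rw [wt_put h.pd.1 hD y hy x fun i hi => hp i (Finset.mem_sdiff.1 hi).1]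
  congr 2; funext i
  simp only [MS.ps, Pi.sub_apply, hp i (mem_inter.1 i.2).1, toR_apply, put_coe]

omit [DecidableEq V] in
/-- iterated summation along a factorisation of the weight -/
theorem hasSum_split {q r : Finset ι} {g : (ι → ℤ) → (↥(q ∩ r) → ℤ) → ℝ}
    (hg : ∀ y, (∀ i ∈ q ∩ r, y i = 0) → ∀ x, S.wt q (put (q ∩ r) x y) = S.wt (q \ r) y * g y x)
    {E : Type*} [NormedAddCommGroup E] [NormedSpace ℝ E] [CompleteSpace E]
    {F : (ι → ℤ) → E} (hF : Summable fun z => S.wt q z • F z) :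
    HasSum (fun y => S.wt (q \ r) y • ∑' x, g y x • F (put (q ∩ r) x y))
      (∑' z, S.wt q z • F z) := by
  refine HasSum.congr_fun (hasSum_put (q ∩ r) hF).2 fun y => ?_
  split_ifs with hy
  · simp only [hg y hy, mul_smul]
    rw [tsum_const_smul'']
  · push Not at hy
    obtain ⟨i, hi, h0⟩ := hy
    rw [wt_eq_zero (q := q \ r) (fun h => (Finset.mem_sdiff.1 h).2 (mem_inter.1 hi).2) h0,
      zero_smul]

end MS

end

end Vale.Agent.P057G
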