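import Vale.Agent.P057G.Ms5

/-!
Linearisation over a set of vertices: symbols of affine systems.
-/

open Matrix Finset Filter
open scoped Real Topology
open Vale.Agent.P267.H775

namespace Vale.Agent.P057G

noncomputable section

variable {V ι : Type*} [DecidableEq ι] [Fintype ι] [DecidableEq V] {S : MS V ι}

namespace MS

/-- the indices whose face meets `T` -/
def sts (S : MS V ι) (T : Finset V) : Finset ι := univ.filter fun i => ¬ Disjoint (S.fc i) T

/-- kill the coordinates whose face meets `T` -/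
def kz (S : MS V ι) (T : Finset V) (z : ι → ℝ) : ι → ℝ := mix (S.sts T) 0 z

/-- the part of a function that is linear over every vertex of `I` -/
def alt (S : MS V ι) (I : Finset V) (θ : (ι → ℝ) → ℝ) (z : ι → ℝ) : ℝ :=
  ∑ T ∈ I.powerset, (-1) ^ T.card * θ (S.kz T z)

/-- linearisation over the vertices of `I` -/
def lnr (S : MS V ι) (I : Finset V) : MS V ι :=
  { S with p := fun z i => S.alt (S.fc i ∩ I) (fun z => S.p z i) z }

omit [DecidableEq ι] in
theorem mem_sts {T : Finset V} {i : ι} : i ∈ S.sts T ↔ ∃ v ∈ T, v ∈ S.fc i := by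
  simp only [sts, mem_filter, mem_univ, true_and, not_disjoint_iff]
  exact ⟨fun ⟨a, h1, h2⟩ => ⟨a, h2, h1⟩, fun ⟨a, h1, h2⟩ => ⟨a, h2, h1⟩⟩

theorem sts_insert (v : V) (T : Finset V) : S.sts (insert v T) = S.st v ∪ S.sts T := by
  ext i; simp [mem_sts, S.mem_st]

omit [DecidableEq ι] in
theorem sts_empty : S.sts ∅ = ∅ := by ext i; simp [mem_sts]

theorem kz_empty (z : ι → ℝ) : S.kz ∅ z = z := by
  funext i; simp [kz, sts_empty, mix]

theorem kz_insert (v : V) (T : Finset V) (z : ι → ℝ) :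
    S.kz (insert v T) z = S.kz T (mix (S.st v) 0 z) := by
  funext i
  simp only [kz, sts_insert, mix, mem_union]
  by_cases a : i ∈ S.st v <;> by_cases b : i ∈ S.sts T <;> simp [a, b]

theorem alt_empty (θ : (ι → ℝ) → ℝ) : S.alt ∅ θ = θ := by
  funext z; simp [alt, kz_empty]

theorem alt_insert {v : V} {I : Finset V} (hv : v ∉ I) (θ : (ι → ℝ) → ℝ) (z : ι → ℝ) :
    S.alt (insert v I) θ z = S.alt I θ z - S.alt I θ (mix (S.st v) 0 z) := by
  rw [alt, sum_powerset_insert hv, alt, alt, sub_eq_add_neg, ← sum_neg_distrib]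
  congr 1
  refine sum_congr rfl fun T hT => ?_
  rw [card_insert_of_notMem fun h => hv (mem_powerset.1 hT h), kz_insert]; ring

theorem aff_alt {r : Finset ι} {θ : (ι → ℝ) → ℝ} (h : Aff r θ) (I : Finset V) :
    Aff r (S.alt I θ) :=
  Aff.sum I.powerset (fun T => (-1) ^ T.card) fun _ _ => h.kill _

theorem lin_alt {v : V} {I : Finset V} (hv : v ∈ I) {θ : (ι → ℝ) → ℝ} (h : Aff (S.st v) θ) :
    Lin (S.st v) (S.alt I θ) := by
  have e : S.alt I θ = fun z => S.alt (I.erase v) θ z - S.alt (I.erase v) θ (mix (S.st v) 0 z) :=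
    funext fun z => by rw [← alt_insert (notMem_erase v I), insert_erase hv]
  rw [e]
  exact (aff_alt h _).lin_part

/-- a function linear over every vertex of `I` is its own linear part -/
theorem alt_of_lin {I : Finset V} {θ : (ι → ℝ) → ℝ} (h : ∀ v ∈ I, Lin (S.st v) θ) :
    S.alt I θ = θ := by
  induction I using Finset.induction_on with
  | empty => exact alt_empty θ
  | insert v I hv ih =>
    funext z
    rw [alt_insert hv, ih fun w hw => h w (mem_insert_of_mem hw),
      (h v (mem_insert_self _ _)).zero, sub_zero]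

theorem lnr_empty : S.lnr ∅ = S := by
  simp only [lnr, inter_empty, alt_empty]

theorem lnr_insert {v : V} {I : Finset V} (hv : v ∉ I) :
    S.lnr (insert v I) = (S.lnr I).ln1 v := by
  have : (S.lnr (insert v I)).p = ((S.lnr I).ln1 v).p := by
    funext z i
    by_cases hi : v ∈ S.fc i
    · rw [ln1_pos (S := S.lnr I) hi]
      change S.alt (S.fc i ∩ insert v I) (fun z => S.p z i) z = _
      rw [inter_insert_of_mem hi, alt_insert fun h => hv (mem_inter.1 h).2]
      rfl
    · rw [ln1_neg (S := S.lnr I) hi]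
      change S.alt (S.fc i ∩ insert v I) (fun z => S.p z i) z = _
      rw [inter_insert_of_notMem hi]
      rfl
  exact congrArg (MS.mk S.fc S.lv S.G) this

theorem Ok.lnr (h : S.Ok) (I : Finset V) : (S.lnr I).Ok := by
  induction I using Finset.induction_on with
  | empty => rwa [lnr_empty]
  | insert v I hv ih => rw [lnr_insert hv]; exact ih.ln1 v

theorem Ok.cenAt_lnr (h : S.Ok) {v : V} {I : Finset V} (hv : v ∈ I) : (S.lnr I).CenAt v :=
  fun i hi y => (lin_alt (mem_inter.2 ⟨hi, hv⟩) (h.aff v i hi)).zero y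

theorem Ok.cen_lnr (h : S.Ok) {I : Finset V} (hI : ∀ i, S.fc i ⊆ I)
    (hne : ∀ i, (S.fc i).Nonempty) : (S.lnr I).Cen :=
  ⟨hne, fun _ i hi y => h.cenAt_lnr (hI i hi) i hi y⟩

theorem Ok.lnr_of_cen (h : S.Ok) (hc : S.Cen) (I : Finset V) : S.lnr I = S := by
  simp only [MS.lnr]
  congr 1
  funext z i
  rw [alt_of_lin fun v hv => h.lin hc (mem_inter.1 hv).1]

theorem Ok.mass_lnr_union (h : S.Ok) (q : Finset ι) (I J : Finset V) :
    (S.lnr I).mass q ≤ (S.lnr (J ∪ I)).mass q := by
  induction J using Finset.induction_on with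
  | empty => rw [empty_union]
  | insert v J _ ih =>
    rw [insert_union]
    by_cases hv : v ∈ J ∪ I
    · rwa [insert_eq_of_mem hv]
    · rw [lnr_insert hv]; exact ih.trans ((h.lnr _).mass_le_ln1 q v)

theorem Ok.mass_lnr_mono (h : S.Ok) (q : Finset ι) {I J : Finset V} (hIJ : I ⊆ J) :
    (S.lnr I).mass q ≤ (S.lnr J).mass q := by
  have := h.mass_lnr_union q I J
  rwa [union_eq_left.2 hIJ] at this

/-- an affine system has mass at most that of its linearisation -/
theorem Ok.mass_le_lnr (h : S.Ok) (q : Finset ι) (I : Finset V) :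
    S.mass q ≤ (S.lnr I).mass q := by
  have := h.mass_lnr_mono q (empty_subset I)
  rwa [lnr_empty] at this

theorem Ok.sat_sts (h : S.Ok) (T : Finset V) : Sat S.G (S.sts T) :=
  h.sat fun _ _ e _ hi => mem_sts.2 (e ▸ mem_sts.1 hi)

/-- removing a set of vertices against a bounded function of the other variables -/
theorem Ok.norm_del_sts (h : S.Ok) (q : Finset ι) {M : ℝ} (T : Finset V)
    (hM : ∀ v ∈ T, ∀ U ⊆ T, (S.ln1 v).mass (q \ S.sts U) - S.mass (q \ S.sts (insert v U)) ≤ M)
    {f : (ι → ℤ) → ℂ} {C : ℝ} (hf : ∀ z, ‖f z‖ ≤ C)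
    (hi : ∀ z z', (∀ i, i ∉ S.sts T → z i = z' i) → f z = f z') :
    ‖(∑' z, (S.wt q z : ℂ) * f z) / vl S.G q -
        (∑' z, (S.wt (q \ S.sts T) z : ℂ) * f z) / vl S.G (q \ S.sts T)‖ ≤ T.card * (C * M) := by
  induction T using Finset.induction_on with
  | empty => simp [sts_empty]
  | insert v T hv ih =>
    have hC : 0 ≤ C := (norm_nonneg _).trans (hf 0)
    have h1 := ih (fun w hw U hU => hM w (mem_insert_of_mem hw) U (hU.trans (subset_insert _ _)))
      fun z z' hz => hi z z' fun i hi => hz i fun h2 => hi (by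
        rw [sts_insert]; exact mem_union_right _ h2)
    have h2 := h.norm_del_st (q \ S.sts T) v hf fun x y => hi _ _ fun i hi =>
      put_neg _ _ fun h2 => hi (by rw [sts_insert]; exact mem_union_left _ (mem_inter.1 h2).2)
    have e : (q \ S.sts T) \ S.st v = q \ S.sts (insert v T) := by
      rw [sts_insert, union_comm, sdiff_sdiff_left]; rfl
    rw [e] at h2
    have h3 := mul_le_mul_of_nonneg_left (hM v (mem_insert_self _ _) T (subset_insert _ _)) hC
    rw [card_insert_of_notMem hv]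
    refine (norm_sub_le_norm_sub_add_norm_sub _ _ _).trans ((add_le_add h1 (h2.trans h3)).trans
      (le_of_eq ?_))
    push_cast; ring

/-- lower bound for the mass of an affine system from the mass of its symbol -/
theorem Ok.mass_ge (h : S.Ok) {I : Finset V} (hI : ∀ i, S.fc i ⊆ I)
    (hne : ∀ i, (S.fc i).Nonempty) {q : Finset ι} (hq : Sat S.G q) {η : ℝ}
    (hη : (S.lnr I).mass q ≤ 1 + η) (T : Finset V) (hT : T ⊆ I) :
    1 - (2 ^ T.card - 1) * η ≤ S.mass (q \ S.sts (I \ T)) := by
  induction T using Finset.induction_on with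
  | empty =>
    have : q \ S.sts (I \ ∅) = ∅ := by
      refine sdiff_eq_empty_iff_subset.2 fun i _ => ?_
      obtain ⟨v, hv⟩ := hne i
      exact mem_sts.2 ⟨v, by simpa using hI i hv, hv⟩
    rw [this, mass_empty]; simp
  | insert v T hv ih =>
    have hvI := hT (mem_insert_self _ _)
    have h1 := ih ((subset_insert _ _).trans hT)
    have h2 := h.mass_ge_ln1 (q \ S.sts (I \ insert v T)) v
    have e : (q \ S.sts (I \ insert v T)) \ S.st v = q \ S.sts (I \ T) := by
      have : I \ T = insert v (I \ insert v T) := by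
        rw [sdiff_insert, insert_erase (Finset.mem_sdiff.2 ⟨hvI, hv⟩)]
      rw [this, sts_insert, union_comm, sdiff_sdiff_left]; rfl
    rw [e] at h2
    have h3 : (S.ln1 v).mass (q \ S.sts (I \ insert v T)) ≤ 1 + η := by
      have h4 := h.mass_lnr_mono (q \ S.sts (I \ insert v T)) (singleton_subset_iff.2 hvI)
      rw [← insert_empty_eq, lnr_insert (notMem_empty v), lnr_empty] at h4
      refine h4.trans (le_trans ?_ hη)
      refine (h.lnr I).mass_mono (h.cen_lnr hI hne) (hq.sdiff h.pd.1 (h.sat_sts _)) q hq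
        sdiff_subset fun i hi j hj hd => Finset.mem_sdiff.2 ⟨hj, fun h5 => ?_⟩
      obtain ⟨w, hw, hw2⟩ := mem_sts.1 h5
      exact (Finset.mem_sdiff.1 hi).2 (mem_sts.2 ⟨w, hw, hd.1 hw2⟩)
    rw [card_insert_of_notMem hv, pow_succ]
    linarith

theorem Ok.mass_ge' (h : S.Ok) {I : Finset V} (hI : ∀ i, S.fc i ⊆ I)
    (hne : ∀ i, (S.fc i).Nonempty) {q : Finset ι} (hq : Sat S.G q) {η : ℝ}
    (hη : (S.lnr I).mass q ≤ 1 + η) : 1 - (2 ^ I.card - 1) * η ≤ S.mass q := by
  have := h.mass_ge hI hne hq hη I Subset.rfl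
  rwa [sdiff_self, bot_eq_empty, sts_empty, sdiff_empty] at this

/-- a multi-affine phase is dominated by the bias of its linear part in the linearised system -/
theorem Ok.norm_le_bias_lnr (h : S.Ok) (q : Finset ι) {θ : (ι → ℝ) → ℝ} (I : Finset V)
    (hθ : ∀ v ∈ I, Aff (S.st v) θ) :
    ‖∑' z, (S.wt q z : ℂ) * ee (θ (toR z))‖ ≤
      ‖∑' z, ((S.lnr I).wt q z : ℂ) * ee (S.alt I θ (toR z))‖ := by
  induction I using Finset.induction_on with
  | empty => rw [lnr_empty, alt_empty]
  | insert v I hv ih =>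
    refine (ih fun w hw => hθ w (mem_insert_of_mem hw)).trans ?_
    have h1 := (h.lnr I).norm_le_bias_ln1 q v (θ := S.alt I θ)
      (aff_alt (hθ v (mem_insert_self _ _)) I) (f := fun _ => 1) (by simp) fun _ _ => rfl
    simp only [one_mul] at h1
    refine h1.trans ?_
    rw [lnr_insert hv, ← ((h.lnr I).ln1 v).re_bias]
    refine (Complex.re_le_norm _).trans (le_of_eq ?_)
    congr 2; funext z; congr 2
    exact (alt_insert hv θ _).symm

theorem Ok.norm_le_bias (h : S.Ok) (q : Finset ι) {θ : (ι → ℝ) → ℝ} {I : Finset V}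
    (hI : I.Nonempty) (hθ : ∀ v ∈ I, Aff (S.st v) θ) :
    ‖∑' z, (S.wt q z : ℂ) * ee (θ (toR z))‖ ≤ (S.lnr I).bias q (S.alt I θ) := by
  obtain ⟨v, hv⟩ := hI
  have hl : Lin ((S.lnr I).st v) (S.alt I θ) := lin_alt (S := S) hv (hθ v hv)
  have h1 := (h.lnr I).hasSum_bias_re' (h.cenAt_lnr hv) q hl
  refine (h.norm_le_bias_lnr q I hθ).trans ?_
  rw [(h.lnr I).tsum_ee' (h.cenAt_lnr hv) q hl, Complex.norm_real, Real.norm_of_nonneg]
  exact h1.nonneg fun _ => mul_nonneg (wt_nonneg _ _) (mul_nonneg (vl_pos h.pd _).le (th_nonneg _ _))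

end MS

end

end Vale.Agent.P057G
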