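import Vale.Agent.P057G.Sq

/-!
Triangular systems are summable; truncation to finite boxes; Cauchy-Schwarz for weighted series.
-/

open Matrix Finset Filter
open scoped Real Topology
open Vale.Agent.P267.H775

namespace Vale.Agent.P057G

noncomputable section

variable {ι : Type*} [Fintype ι]

/-- each coordinate of `p` depends only on coordinates of lower level -/
def Tri (lv : ι → ℕ) (p : (ι → ℤ) → ι → ℝ) : Prop :=
  ∀ i z z', (∀ j, lv j < lv i → z j = z' j) → p z i = p z' i

omit [Fintype ι] in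
theorem Tri.inj {lv : ι → ℕ} {p : (ι → ℤ) → ι → ℝ} (hp : Tri lv p) :
    Function.Injective fun (z : ι → ℤ) (i : ι) => z i - round (p z i) := by
  intro z z' h
  have key : ∀ n i, lv i = n → z i = z' i := by
    intro n
    induction n using Nat.strong_induction_on with
    | _ n ih =>
      intro i hi
      have h1 := congrFun h i
      have h2 : p z i = p z' i := hp i z z' fun j hj => ih (lv j) (hi ▸ hj) j rfl
      simp only [h2] at h1
      omega
  funext i
  exact key _ i rfl

theorem summable_near [DecidableEq ι] {G : Matrix ι ι ℝ} (hG : G.PosDef) (R : ℝ) :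
    ∃ u : (ι → ℤ) → ℝ, Summable u ∧ ∀ (n : ι → ℤ) (x : ι → ℝ), (∀ i, |x i| ≤ R) →
      gs G (x + toR n) ≤ u n := by
  obtain ⟨M, hM, rfl⟩ := exists_sqrt hG
  obtain ⟨u, -, hu, hle⟩ := exists_bound M hM R 1 one_pos
  refine ⟨u, hu, fun n x hx => ?_⟩
  have := hle n x hx
  rw [gs, qq_mul]
  convert this using 2
  unfold qf; ring

/-- triangular Gaussian weights are summable -/
theorem Tri.summable [DecidableEq ι] {lv : ι → ℕ} {p : (ι → ℤ) → ι → ℝ} (hp : Tri lv p)
    {G : Matrix ι ι ℝ} (hG : G.PosDef) : Summable fun z : ι → ℤ => gs G (toR z - p z) := by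
  obtain ⟨u, hu, hle⟩ := summable_near hG (1 / 2)
  refine (hu.comp_injective hp.inj).of_nonneg_of_le (fun z => (gs_pos _ _).le) fun z => ?_
  have h := hle (fun i => z i - round (p z i)) (fun i => round (p z i) - p z i)
    fun i => by rw [abs_sub_comm]; exact abs_sub_round _
  refine le_trans (le_of_eq ?_) h
  congr 1
  funext i
  simp only [Pi.sub_apply, Pi.add_apply, toR_apply]
  push_cast; ring

/-- a bounded function times a summable weight -/
theorem summable_mul_bdd {Ω E : Type*} [NormedAddCommGroup E] [NormedSpace ℝ E] [CompleteSpace E]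
    {w : Ω → ℝ} (hw : Summable w) (h0 : ∀ x, 0 ≤ w x) {f : Ω → E} {C : ℝ}
    (hf : ∀ x, ‖f x‖ ≤ C) : Summable fun x => w x • f x := by
  refine (hw.mul_right C).of_norm_bounded fun x => ?_
  rw [norm_smul, Real.norm_of_nonneg (h0 x)]
  exact mul_le_mul_of_nonneg_left (hf x) (h0 x)

theorem summable_mul_real {Ω : Type*} {w : Ω → ℝ} (hw : Summable w) (h0 : ∀ x, 0 ≤ w x)
    {f : Ω → ℝ} {C : ℝ} (hf : ∀ x, |f x| ≤ C) : Summable fun x => w x * f x :=
  summable_mul_bdd hw h0 hf

theorem summable_mul_cx {Ω : Type*} {w : Ω → ℝ} (hw : Summable w) (h0 : ∀ x, 0 ≤ w x)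
    {f : Ω → ℂ} {C : ℝ} (hf : ∀ x, ‖f x‖ ≤ C) : Summable fun x => (w x : ℂ) * f x := by
  simpa only [Complex.real_smul] using summable_mul_bdd hw h0 hf

/-- Cauchy-Schwarz for series of nonnegative terms -/
theorem tsum_cs {Ω : Type*} {a b c : Ω → ℝ} (ha : Summable a) (hb : Summable b)
    (ha0 : ∀ x, 0 ≤ a x) (hb0 : ∀ x, 0 ≤ b x) (hc0 : ∀ x, 0 ≤ c x)
    (h : ∀ x, c x ^ 2 ≤ a x * b x) :
    Summable c ∧ (∑' x, c x) ^ 2 ≤ (∑' x, a x) * ∑' x, b x := by
  have hs : Summable c := by
    refine (ha.add hb).of_nonneg_of_le hc0 fun x => ?_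
    have := h x
    have := ha0 x
    have := hb0 x
    have := hc0 x
    nlinarith
  refine ⟨hs, ?_⟩
  have ht : Tendsto (fun s : Finset Ω => (∑ x ∈ s, c x) ^ 2) atTop (𝓝 ((∑' x, c x) ^ 2)) :=
    hs.hasSum.pow 2
  refine le_of_tendsto' ht fun s => ?_
  refine (sum_sq_le_sum_mul_sum_of_sq_le_mul s (fun x _ => ha0 x) (fun x _ => hb0 x)
    fun x _ => h x).trans ?_
  exact mul_le_mul (ha.sum_le_tsum s fun x _ => ha0 x) (hb.sum_le_tsum s fun x _ => hb0 x)
    (sum_nonneg fun x _ => hb0 x) (tsum_nonneg ha0)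

/-- weighted Cauchy-Schwarz: the square of a weighted mean -/
theorem norm_tsum_sq_le {Ω E : Type*} [NormedAddCommGroup E] [NormedSpace ℝ E] [CompleteSpace E]
    {w : Ω → ℝ} (hw : Summable w) (h0 : ∀ x, 0 ≤ w x) {f : Ω → E}
    (hf : Summable fun x => w x * ‖f x‖ ^ 2) :
    ‖∑' x, w x • f x‖ ^ 2 ≤ (∑' x, w x) * ∑' x, w x * ‖f x‖ ^ 2 := by
  have h := tsum_cs (c := fun x => w x * ‖f x‖) hw hf h0 (fun x => mul_nonneg (h0 x) (sq_nonneg _))
    (fun x => mul_nonneg (h0 x) (norm_nonneg _)) fun x => le_of_eq (by ring)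
  refine le_trans (pow_le_pow_left₀ (norm_nonneg _) ?_ 2) h.2
  refine tsum_of_norm_bounded h.1.hasSum fun x => ?_
  rw [norm_smul, Real.norm_of_nonneg (h0 x)]

/-- the symmetric integer box -/
def bx (ι : Type*) [Fintype ι] [DecidableEq ι] (R : ℕ) : Finset (ι → ℤ) :=
  Fintype.piFinset fun _ => Icc (-(R : ℤ)) R

theorem tendsto_bx [DecidableEq ι] : Tendsto (bx ι) atTop atTop := by
  refine tendsto_atTop_finset_of_monotone (fun R S h => ?_) fun z => ?_
  · refine Fintype.piFinset_subset _ _ fun _ => Icc_subset_Icc ?_ ?_ <;> omega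
  · refine ⟨univ.sup fun i => (z i).natAbs, Fintype.mem_piFinset.2 fun i => ?_⟩
    have : (z i).natAbs ≤ univ.sup fun i => (z i).natAbs :=
      le_sup (f := fun i => (z i).natAbs) (mem_univ i)
    rw [mem_Icc]; omega

/-- truncation: box sums converge to the series -/
theorem tendsto_sum_bx [DecidableEq ι] {E : Type*} [AddCommMonoid E] [TopologicalSpace E]
    {f : (ι → ℤ) → E} (hf : Summable f) :
    Tendsto (fun R => ∑ z ∈ bx ι R, f z) atTop (𝓝 (∑' z, f z)) :=
  Tendsto.comp (g := fun s : Finset (ι → ℤ) => ∑ z ∈ s, f z) hf.hasSum tendsto_bx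

/-- truncation along any exhausting family of coordinate sets -/
theorem tendsto_piFinset {A : Type*} [Fintype A] [DecidableEq A] {X : A → Type*}
    (S : ℕ → ∀ a, Finset (X a)) (hS : ∀ a, Tendsto (fun R => S R a) atTop atTop) :
    Tendsto (fun R => Fintype.piFinset (S R)) atTop atTop := by
  classical
  refine tendsto_atTop.2 fun t => ?_
  have h : ∀ a, ∀ᶠ R in atTop, t.image (fun x => x a) ≤ S R a := fun a => tendsto_atTop.1 (hS a) _
  filter_upwards [eventually_all.2 h] with R hR x hx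
  exact Fintype.mem_piFinset.2 fun a => hR a (mem_image_of_mem (fun x => x a) hx)

end

end Vale.Agent.P057G
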