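import Vale.Agent.P057G.Th

/-!
Completing the square, exact mixtures, exponential moments, tails and shift estimates.
-/

open MeasureTheory Complex Matrix Finset
open scoped Real
open Vale.Agent.P267.H775

namespace Vale.Agent.P057G

noncomputable section

variable {ι κ : Type*} [Fintype ι] [Fintype κ]

theorem bb_conj (G : Matrix ι ι ℝ) (L : Matrix ι κ ℝ) (w : κ → ℝ) (x : ι → ℝ) :
    bb G (L *ᵥ w) x = w ⬝ᵥ (Lᵀ *ᵥ (G *ᵥ x)) := by
  unfold bb
  rw [dotProduct_mulVec w, vecMul_transpose]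

/-- completing the square for a form with a linear term -/
theorem sq_lin [DecidableEq ι] {G : Matrix ι ι ℝ} (hG : G.PosDef) (u l : ι → ℝ) :
    qq G u - 2 * (u ⬝ᵥ l) = qq G (u - G⁻¹ *ᵥ l) - qq G⁻¹ l := by
  rw [qq_sub hG.1, bb_inv hG, qq_inv hG]; ring

/-- restriction to an affine sublattice: completing the square -/
theorem qq_sheet [DecidableEq κ] {G : Matrix ι ι ℝ} (hG : G.IsHermitian) (L : Matrix ι κ ℝ)
    (hL : (Lᵀ * G * L).PosDef) (x : ι → ℝ) (w : κ → ℝ) :
    qq G (L *ᵥ w - x) = qq (Lᵀ * G * L) (w - (Lᵀ * G * L)⁻¹ *ᵥ (Lᵀ *ᵥ (G *ᵥ x))) +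
      (qq G x - qq (Lᵀ * G * L)⁻¹ (Lᵀ *ᵥ (G *ᵥ x))) := by
  have h := sq_lin hL w (Lᵀ *ᵥ (G *ᵥ x))
  rw [qq_sub hG, bb_conj, ← qq_conj]
  linarith

/-- adding forms with a centre: completing the square -/
theorem qq_addform [DecidableEq ι] {G : Matrix ι ι ℝ} {B : Matrix κ κ ℝ} (hB : B.IsHermitian)
    (L : Matrix κ ι ℝ) (hL : (G + Lᵀ * B * L).PosDef) (c : κ → ℝ) (u : ι → ℝ) :
    qq G u + qq B (L *ᵥ u - c) =
      qq (G + Lᵀ * B * L) (u - (G + Lᵀ * B * L)⁻¹ *ᵥ (Lᵀ *ᵥ (B *ᵥ c))) +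
      (qq B c - qq (G + Lᵀ * B * L)⁻¹ (Lᵀ *ᵥ (B *ᵥ c))) := by
  have h := sq_lin hL u (Lᵀ *ᵥ (B *ᵥ c))
  rw [qq_add_mat, qq_conj] at h
  rw [qq_sub hB, bb_conj]
  linarith

theorem gs_of_qq {G : Matrix ι ι ℝ} {H : Matrix κ κ ℝ} {x : ι → ℝ} {y : κ → ℝ} {r : ℝ}
    (h : qq G x = qq H y + r) : gs G x = Real.exp (-(π * r)) * gs H y := by
  unfold gs; rw [h, ← Real.exp_add]; congr 1; ring

theorem gs_mul_of_qq {μ : Type*} [Fintype μ] {G : Matrix ι ι ℝ} {B : Matrix κ κ ℝ}
    {H : Matrix μ μ ℝ} {x : ι → ℝ} {y : κ → ℝ} {v : μ → ℝ} {r : ℝ}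
    (h : qq G x + qq B y = qq H v + r) : gs G x * gs B y = Real.exp (-(π * r)) * gs H v := by
  unfold gs; rw [← Real.exp_add, ← Real.exp_add]; congr 1; linear_combination (-π) * h

theorem posDef_addform {G : Matrix ι ι ℝ} (hG : G.PosDef) {B : Matrix κ κ ℝ}
    (hB : B.PosSemidef) (L : Matrix κ ι ℝ) : (G + Lᵀ * B * L).PosDef := by
  refine hG.add_posSemidef ?_
  have := hB.conjTranspose_mul_mul_same L
  rwa [conjTranspose_eq_transpose_of_trivial] at this

theorem posDef_conj {G : Matrix ι ι ℝ} (hG : G.PosDef) (L : Matrix ι κ ℝ)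
    (hL : Function.Injective L.mulVec) : (Lᵀ * G * L).PosDef := by
  have := hG.conjTranspose_mul_mul_same hL
  rwa [conjTranspose_eq_transpose_of_trivial] at this

variable [DecidableEq ι]

theorem integral_gs_real {G : Matrix ι ι ℝ} (hG : G.PosDef) : ∫ x, gs G x = vol G := by
  have h := integral_gs hG 0
  simp only [zero_dotProduct, ee_zero, one_mul, gs_zero, mul_one] at h
  rw [integral_complex_ofReal] at h
  exact_mod_cast h

/-- the mixture identity: a Gaussian with a uniformly random centre has constant mass -/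
theorem integral_gs_sub {G : Matrix ι ι ℝ} (hG : G.PosDef) (y : ι → ℝ) :
    ∫ c, gs G (y - c) = vol G := by
  rw [integral_sub_left_eq_self (fun c => gs G c) volume y, integral_gs_real hG]

theorem integrable_gs_sub {G : Matrix ι ι ℝ} (hG : G.PosDef) (y : ι → ℝ) :
    Integrable fun c => gs G (y - c) := (integrable_gs hG).comp_sub_left y

/-- exponential tilt -/
theorem gs_mul_exp {G : Matrix ι ι ℝ} (hG : G.PosDef) (u l : ι → ℝ) :
    gs G u * Real.exp (2 * π * (u ⬝ᵥ l)) =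
      Real.exp (π * qq G⁻¹ l) * gs G (u - G⁻¹ *ᵥ l) := by
  unfold gs
  rw [← Real.exp_add, ← Real.exp_add]
  congr 1
  linear_combination (-π) * sq_lin hG u l

theorem hasSum_tilt {G : Matrix ι ι ℝ} (hG : G.PosDef) (x l : ι → ℝ) :
    HasSum (fun z : ι → ℤ => gs G (toR z - x) * Real.exp (2 * π * ((toR z - x) ⬝ᵥ l)))
      (Real.exp (π * qq G⁻¹ l) * th G (x + G⁻¹ *ᵥ l)) := by
  simp_rw [gs_mul_exp hG, sub_sub]
  exact (hasSum_th hG _).mul_left _

omit [DecidableEq ι] in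
theorem summable_ind {G : Matrix ι ι ℝ} {x : ι → ℝ}
    (h : Summable fun z : ι → ℤ => gs G (toR z - x)) (p : (ι → ℤ) → Prop) [DecidablePred p] :
    Summable fun z : ι → ℤ => if p z then gs G (toR z - x) else 0 := by
  refine h.of_nonneg_of_le (fun z => ?_) fun z => ?_ <;> split_ifs
  exacts [(gs_pos _ _).le, le_rfl, le_rfl, (gs_pos _ _).le]

/-- one-sided subgaussian tail of a linear functional, free of the dimension -/
theorem tail_lin {G : Matrix ι ι ℝ} (hG : G.PosDef) (x l : ι → ℝ) {s R : ℝ} (hs : 0 < s)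
    (hR : 0 ≤ R) (hl : qq G⁻¹ l ≤ s ^ 2) :
    ∑' z : ι → ℤ, (if R * s ≤ (toR z - x) ⬝ᵥ l then gs G (toR z - x) else 0) ≤
      Real.exp (-(π * R ^ 2)) * th G 0 := by
  have h := (hasSum_tilt hG x ((R / s) • l)).mul_left (Real.exp (-(2 * π * R ^ 2)))
  refine (hasSum_le (fun z => ?_) (summable_ind (summable_gs hG x) _).hasSum h).trans ?_
  · split_ifs with hz
    · rw [mul_left_comm, ← Real.exp_add]
      refine le_mul_of_one_le_right (gs_pos _ _).le (Real.one_le_exp ?_)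
      rw [dotProduct_smul, smul_eq_mul]
      have h1 : R ^ 2 ≤ R / s * ((toR z - x) ⬝ᵥ l) := by
        calc R ^ 2 = R / s * (R * s) := by field_simp
          _ ≤ _ := mul_le_mul_of_nonneg_left hz (by positivity)
      have := Real.pi_pos
      nlinarith
    · exact mul_nonneg (Real.exp_pos _).le (mul_nonneg (gs_pos _ _).le (Real.exp_pos _).le)
  · rw [← mul_assoc, ← Real.exp_add]
    refine mul_le_mul (Real.exp_le_exp.2 ?_) (th_le_th_zero hG _) (th_nonneg _ _)
      (Real.exp_pos _).le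
    rw [qq_smul]
    have h1 : (R / s) ^ 2 * qq G⁻¹ l ≤ R ^ 2 := by
      calc (R / s) ^ 2 * qq G⁻¹ l ≤ (R / s) ^ 2 * s ^ 2 :=
            mul_le_mul_of_nonneg_left hl (sq_nonneg _)
        _ = R ^ 2 := by field_simp
    have := Real.pi_pos
    nlinarith

/-- two-sided tail of a linear functional -/
theorem tail_abs {G : Matrix ι ι ℝ} (hG : G.PosDef) (x l : ι → ℝ) {s R : ℝ} (hs : 0 < s)
    (hR : 0 ≤ R) (hl : qq G⁻¹ l ≤ s ^ 2) :
    ∑' z : ι → ℤ, (if R * s ≤ |(toR z - x) ⬝ᵥ l| then gs G (toR z - x) else 0) ≤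
      2 * Real.exp (-(π * R ^ 2)) * th G 0 := by
  have h1 := tail_lin hG x l hs hR hl
  have h2 := tail_lin hG x (-l) hs hR (by rwa [qq_neg])
  have s1 := summable_ind (summable_gs hG x) fun z => R * s ≤ (toR z - x) ⬝ᵥ l
  have s2 := summable_ind (summable_gs hG x) fun z => R * s ≤ (toR z - x) ⬝ᵥ (-l)
  have h3 := hasSum_le (fun z => ?_)
    (summable_ind (summable_gs hG x) fun z => R * s ≤ |(toR z - x) ⬝ᵥ l|).hasSum
    (s1.hasSum.add s2.hasSum)
  · linarith
  · have := gs_pos G (toR z - x)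
    rw [dotProduct_neg]
    split_ifs with a b c d e f g <;> try linarith
    rcases le_abs.1 a with h | h <;> contradiction

/-- tail of the norm -/
theorem tail_norm {G : Matrix ι ι ℝ} (hG : G.PosDef) (x : ι → ℝ) (r : ℝ) :
    ∑' z : ι → ℤ, (if r ≤ qq G (toR z - x) then gs G (toR z - x) else 0) ≤
      Real.exp (-(π * r / 2)) * (√2 ^ Fintype.card ι * th G 0) := by
  have h2 : ((1 / 2 : ℝ) • G).PosDef := hG.smul (by norm_num)
  have h := (hasSum_th h2 x).mul_left (Real.exp (-(π * r / 2)))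
  refine (hasSum_le (fun z => ?_) (summable_ind (summable_gs hG x) _).hasSum h).trans ?_
  · split_ifs with hz
    · unfold gs
      rw [← Real.exp_add, qq_smul_mat]
      refine Real.exp_le_exp.2 ?_
      have := Real.pi_pos
      nlinarith
    · exact mul_nonneg (Real.exp_pos _).le (gs_pos _ _).le
  · refine mul_le_mul_of_nonneg_left ?_ (Real.exp_pos _).le
    have := th_smul_le (c := 1 / 2) (by norm_num) (by norm_num) hG x
    rwa [show (√(1 / 2 : ℝ))⁻¹ = √2 by rw [one_div, Real.sqrt_inv, inv_inv]] at this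

omit [DecidableEq ι] in
/-- a shift changes a Gaussian by a controlled factor -/
theorem gs_sub_eq {G : Matrix ι ι ℝ} (hG : G.IsHermitian) (u v : ι → ℝ) :
    gs G (u - v) = gs G u * Real.exp (2 * π * bb G u v - π * qq G v) := by
  unfold gs
  rw [← Real.exp_add, qq_sub hG]; congr 1; ring

omit [DecidableEq ι] in
/-- second moment of the shift ratio -/
theorem gs_sub_sq {G : Matrix ι ι ℝ} (hG : G.IsHermitian) (u v : ι → ℝ) :
    gs G (u - v) ^ 2 = gs G u * (Real.exp (2 * π * qq G v) * gs G (u - (2 : ℝ) • v)) := by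
  unfold gs
  rw [← Real.exp_add, ← Real.exp_add, ← Real.exp_nat_mul, qq_sub hG, qq_sub hG, qq_smul]
  congr 1
  have : bb G u ((2 : ℝ) • v) = 2 * bb G u v := by
    simp only [bb, mulVec_smul, dotProduct_smul, smul_eq_mul]
  rw [this]; push_cast; ring

omit [DecidableEq ι] in
/-- cross term of two shifts -/
theorem gs_sub_mul {G : Matrix ι ι ℝ} (hG : G.IsHermitian) (u v w : ι → ℝ) :
    gs G (u - v) * gs G (u - w) =
      gs G u * (Real.exp (2 * π * bb G v w) * gs G (u - (v + w))) := by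
  unfold gs
  rw [← Real.exp_add, ← Real.exp_add, ← Real.exp_add, qq_sub hG, qq_sub hG, qq_sub hG, qq_add hG]
  congr 1
  have : bb G u (v + w) = bb G u v + bb G u w := by
    simp only [bb, mulVec_add, dotProduct_add]
  rw [this]; ring

end

end Vale.Agent.P057G
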