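import Vale.Agent.P267.H775.Gauss
import Mathlib.Analysis.Matrix.Order

/-!
Gaussian sums over the integer lattice for a positive definite Gram matrix: definitions and
the twisted Poisson formula.
-/

open MeasureTheory Complex Matrix Finset
open scoped Real MatrixOrder
open Vale.Agent.P267.H775

namespace Vale.Agent.P057G

noncomputable section

variable {ι : Type*} [Fintype ι]

/-- the quadratic form of a Gram matrix -/
def qq (G : Matrix ι ι ℝ) (x : ι → ℝ) : ℝ := x ⬝ᵥ (G *ᵥ x)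

/-- the Gaussian weight -/
def gs (G : Matrix ι ι ℝ) (x : ι → ℝ) : ℝ := Real.exp (-(π * qq G x))

/-- the additive character of the real line -/
def ee (t : ℝ) : ℂ := cexp (2 * π * I * t)

/-- the integral of the Gaussian -/
def vol [DecidableEq ι] (G : Matrix ι ι ℝ) : ℝ := (√G.det)⁻¹

/-- the shifted lattice sum -/
def th (G : Matrix ι ι ℝ) (x : ι → ℝ) : ℝ := ∑' z : ι → ℤ, gs G (toR z - x)

theorem gs_pos (G : Matrix ι ι ℝ) (x : ι → ℝ) : 0 < gs G x := Real.exp_pos _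

theorem qq_zero (G : Matrix ι ι ℝ) : qq G 0 = 0 := by simp [qq]

theorem gs_zero (G : Matrix ι ι ℝ) : gs G 0 = 1 := by simp [gs, qq_zero]

theorem qq_neg (G : Matrix ι ι ℝ) (x : ι → ℝ) : qq G (-x) = qq G x := by
  simp [qq, mulVec_neg]

theorem gs_neg (G : Matrix ι ι ℝ) (x : ι → ℝ) : gs G (-x) = gs G x := by
  simp [gs, qq_neg]

theorem gs_sub_comm (G : Matrix ι ι ℝ) (x y : ι → ℝ) : gs G (x - y) = gs G (y - x) := by
  rw [← gs_neg, neg_sub]

theorem qq_nonneg {G : Matrix ι ι ℝ} (hG : G.PosSemidef) (x : ι → ℝ) : 0 ≤ qq G x := by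
  simpa [qq] using hG.dotProduct_mulVec_nonneg x

theorem gs_le_one {G : Matrix ι ι ℝ} (hG : G.PosSemidef) (x : ι → ℝ) : gs G x ≤ 1 := by
  have := qq_nonneg hG x
  unfold gs
  rw [Real.exp_le_one_iff]
  have := Real.pi_pos
  nlinarith

theorem ee_add (s t : ℝ) : ee (s + t) = ee s * ee t := by
  unfold ee; rw [← Complex.exp_add]; congr 1; push_cast; ring

theorem ee_zero : ee 0 = 1 := by simp [ee]

theorem norm_ee (t : ℝ) : ‖ee t‖ = 1 := by
  unfold ee
  have : (2 * π * I * t : ℂ) = ((2 * π * t : ℝ) : ℂ) * I := by push_cast; ring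
  rw [this, Complex.norm_exp_ofReal_mul_I]

theorem ee_int (n : ℤ) : ee n = 1 := by
  unfold ee
  have : (2 * π * I * ((n : ℝ) : ℂ) : ℂ) = n * (2 * π * I) := by push_cast; ring
  rw [this, Complex.exp_int_mul_two_pi_mul_I]

theorem ee_neg (t : ℝ) : ee (-t) = (starRingEnd ℂ) (ee t) := by
  unfold ee
  rw [← Complex.exp_conj]
  congr 1
  simp only [map_mul, Complex.conj_ofReal, Complex.conj_I, map_ofNat]
  push_cast; ring

theorem continuous_ee : Continuous ee := by unfold ee; fun_prop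

theorem chr_eq (k : ι → ℤ) (x : ι → ℝ) : chr k x = ee (toR k ⬝ᵥ x) := by
  unfold chr ee dotProduct
  congr 2
  push_cast
  rfl

variable [DecidableEq ι]

theorem exists_sqrt {G : Matrix ι ι ℝ} (hG : G.PosDef) :
    ∃ M : Matrix ι ι ℝ, M.det ≠ 0 ∧ G = Mᵀ * M := by
  obtain ⟨y, hy, rfl⟩ := CStarAlgebra.isStrictlyPositive_iff_eq_star_mul_self.mp
    hG.isStrictlyPositive
  refine ⟨y, ?_, ?_⟩
  · exact ((Matrix.isUnit_iff_isUnit_det y).1 hy).ne_zero
  · rw [star_eq_conjTranspose, conjTranspose_eq_transpose_of_trivial]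

omit [DecidableEq ι] in
theorem qq_mul {κ : Type*} [Fintype κ] (M : Matrix κ ι ℝ) (x : ι → ℝ) :
    qq (Mᵀ * M) x = ∑ i, ((M *ᵥ x) i) ^ 2 := by
  unfold qq
  rw [← mulVec_mulVec, dotProduct_mulVec, vecMul_transpose]
  simp only [dotProduct, sq]

theorem gau_I (M : Matrix ι ι ℝ) (x : ι → ℝ) : gau M I x = (gs (Mᵀ * M) x : ℂ) := by
  rw [gau_apply, gs, qq_mul, Complex.ofReal_exp]
  congr 1
  unfold qf
  push_cast
  linear_combination (π * ∑ i, (((M *ᵥ x) i : ℝ) : ℂ) ^ 2) * I_mul_I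

theorem inv_mul_eq (M : Matrix ι ι ℝ) : (Mᵀ * M)⁻¹ = ((M⁻¹)ᵀ)ᵀ * (M⁻¹)ᵀ := by
  rw [Matrix.mul_inv_rev, transpose_transpose, transpose_nonsing_inv]

theorem vol_mul (M : Matrix ι ι ℝ) : vol (Mᵀ * M) = |M.det|⁻¹ := by
  unfold vol
  rw [det_mul, det_transpose, Real.sqrt_mul_self_eq_abs]

theorem vol_pos {G : Matrix ι ι ℝ} (hG : G.PosDef) : 0 < vol G :=
  inv_pos.2 (Real.sqrt_pos.2 hG.det_pos)

theorem vol_inv (G : Matrix ι ι ℝ) : vol G⁻¹ = (vol G)⁻¹ := by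
  unfold vol
  rw [det_nonsing_inv, Ring.inverse_eq_inv', Real.sqrt_inv]

theorem integrable_gs {G : Matrix ι ι ℝ} (hG : G.PosDef) : Integrable (gs G) := by
  obtain ⟨M, hM, rfl⟩ := exists_sqrt hG
  have h := integrable_gau M hM (τ := I) (by simp)
  have h2 : (gau M I : (ι → ℝ) → ℂ) = fun x => (gs (Mᵀ * M) x : ℂ) := funext (gau_I M)
  rw [h2] at h
  simpa using h.re

theorem summable_gs {G : Matrix ι ι ℝ} (hG : G.PosDef) (x : ι → ℝ) :
    Summable fun z : ι → ℤ => gs G (toR z - x) := by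
  obtain ⟨M, hM, rfl⟩ := exists_sqrt hG
  have h := (locSum_gau M hM (τ := I) (by simp)).summable (-x)
  simp_rw [gau_I] at h
  have h2 := summable_ofReal.1 h
  refine h2.congr fun z => ?_
  congr 1; abel

/-- Fourier transform at a real frequency -/
theorem integral_gs {G : Matrix ι ι ℝ} (hG : G.PosDef) (η : ι → ℝ) :
    ∫ x : ι → ℝ, ee (η ⬝ᵥ x) * (gs G x : ℂ) = ((vol G * gs G⁻¹ η : ℝ) : ℂ) := by
  obtain ⟨M, hM, rfl⟩ := exists_sqrt hG
  set c : ι → ℂ := fun i => (2 * π * I) * (((M⁻¹)ᵀ *ᵥ η) i : ℝ) with hc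
  set F : (ι → ℝ) → ℂ := fun y => cexp (-(π : ℂ) * ∑ i, (y i : ℂ) ^ 2 + ∑ i, c i * y i)
    with hF
  have hmap := Real.map_matrix_volume_pi_eq_smul_volume_pi hM
  have hme : Measurable (toLin' M : (ι → ℝ) → (ι → ℝ)) :=
    (LinearMap.continuous_on_pi (toLin' M)).measurable
  have h1 : ∀ x : ι → ℝ, ee (η ⬝ᵥ x) * (gs (Mᵀ * M) x : ℂ) = F (toLin' M x) := by
    intro x
    rw [gs, qq_mul, ee, Complex.ofReal_exp, ← Complex.exp_add, hF]
    simp only
    congr 1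
    have e3 : η ⬝ᵥ x = ∑ i, ((M⁻¹)ᵀ *ᵥ η) i * (M *ᵥ x) i := by
      have : ((M⁻¹)ᵀ *ᵥ η) ⬝ᵥ (M *ᵥ x) = η ⬝ᵥ x := by
        rw [mulVec_transpose, ← dotProduct_mulVec, mulVec_mulVec,
          nonsing_inv_mul _ (isUnit_iff_ne_zero.2 hM), one_mulVec]
      exact this.symm
    rw [e3]
    simp only [hc, toLin'_apply]
    push_cast
    rw [Finset.mul_sum, add_comm]
    congr 1
    · ring
    · exact Finset.sum_congr rfl fun i _ => by ring
  simp_rw [h1]
  rw [← integral_map (φ := (toLin' M : (ι → ℝ) → (ι → ℝ))) (f := F) hme.aemeasurable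
    (by
      have : Continuous F := by fun_prop
      exact this.aestronglyMeasurable), hmap, integral_smul_measure]
  have h2 := GaussianFourier.integral_cexp_neg_mul_sum_add (ι := ι) (b := (π : ℂ))
    (by simpa using Real.pi_pos) c
  rw [hF]
  simp only at h2 ⊢
  rw [h2, ENNReal.toReal_ofReal (abs_nonneg _), abs_inv, Complex.real_smul, vol_mul,
    inv_mul_eq, gs, qq_mul, div_self (by exact_mod_cast Real.pi_ne_zero), one_cpow, one_mul]
  push_cast
  congr 2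
  have e6 : ∑ i, c i ^ 2 = -(4 * π ^ 2) * ∑ i, ((((M⁻¹)ᵀ *ᵥ η) i : ℝ) : ℂ) ^ 2 := by
    simp only [hc]
    rw [Finset.mul_sum]
    refine Finset.sum_congr rfl fun i _ => ?_
    linear_combination (4 * π ^ 2 * ((((M⁻¹)ᵀ *ᵥ η) i : ℝ) : ℂ) ^ 2) * I_mul_I
  rw [e6]
  have : (π : ℂ) ≠ 0 := by exact_mod_cast Real.pi_ne_zero
  field_simp

omit [DecidableEq ι] in
theorem continuous_gs (G : Matrix ι ι ℝ) : Continuous (gs G) := by
  unfold gs qq; fun_prop

/-- **twisted Poisson summation** -/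
theorem poisson_tw {G : Matrix ι ι ℝ} (hG : G.PosDef) (x ξ : ι → ℝ) :
    HasSum (fun k : ι → ℤ => ((vol G * gs G⁻¹ (toR k - ξ) : ℝ) : ℂ) * ee ((ξ - toR k) ⬝ᵥ x))
      (∑' z : ι → ℤ, (gs G (toR z - x) : ℂ) * ee (ξ ⬝ᵥ toR z)) := by
  let f : C(ι → ℝ, ℂ) := ⟨fun y => ee (ξ ⬝ᵥ y) * (gs G y : ℂ), by
    have := continuous_gs G
    have := continuous_ee
    fun_prop⟩
  have hn : ∀ y, ‖f y‖ = gs G y := fun y => by
    change ‖ee (ξ ⬝ᵥ y) * (gs G y : ℂ)‖ = _
    rw [norm_mul, norm_ee, one_mul, Complex.norm_real, Real.norm_of_nonneg (gs_pos G y).le]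
  have hloc : LocSum f := by
    obtain ⟨M, hM, hGM⟩ := exists_sqrt hG
    intro K
    refine (locSum_gau M hM (τ := I) (by simp) K).of_norm_bounded fun n => ?_
    rw [norm_norm, ContinuousMap.norm_le _ (norm_nonneg _)]
    rintro ⟨y, hy⟩
    have h1 := norm_le_restrict (trans (gau M I) n) K hy
    refine le_trans (le_of_eq ?_) h1
    change ‖f (y + toR n)‖ = ‖gau M I (y + toR n)‖
    rw [hn, gau_I, ← hGM, Complex.norm_real, Real.norm_of_nonneg (gs_pos G _).le]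
  have hint : Integrable (f : (ι → ℝ) → ℂ) := by
    refine (integrable_gs hG).mono' f.continuous.aestronglyMeasurable
      (Filter.Eventually.of_forall fun y => (hn y).le)
  have hfc : ∀ k : ι → ℤ, fc f k = ((vol G * gs G⁻¹ (toR k - ξ) : ℝ) : ℂ) := by
    intro k
    rw [gs_sub_comm, ← integral_gs hG]
    unfold fc
    congr 1; funext y
    change chr (-k) y * (ee (ξ ⬝ᵥ y) * (gs G y : ℂ)) = _
    rw [chr_eq, ← mul_assoc, ← ee_add, toR_neg, ← add_dotProduct]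
    congr 3; abel
  have hs : Summable (fc (f : (ι → ℝ) → ℂ)) := by
    refine ((summable_ofReal.2 ((summable_gs hG.inv ξ).mul_left (vol G))).congr fun k => ?_)
    exact (hfc k).symm
  have h := (poisson f hloc hint hs (-x)).mul_right (ee (ξ ⬝ᵥ x))
  rw [← tsum_mul_right] at h
  have e1 : (fun k : ι → ℤ => ((vol G * gs G⁻¹ (toR k - ξ) : ℝ) : ℂ) * ee ((ξ - toR k) ⬝ᵥ x)) =
      fun k => fc f k * chr k (-x) * ee (ξ ⬝ᵥ x) := by
    funext k
    rw [hfc, chr_eq, mul_assoc, ← ee_add]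
    congr 2
    rw [sub_dotProduct, dotProduct_neg]; ring
  have e2 : (fun z : ι → ℤ => (gs G (toR z - x) : ℂ) * ee (ξ ⬝ᵥ toR z)) =
      fun z => f (-x + toR z) * ee (ξ ⬝ᵥ x) := by
    funext z
    change _ = ee (ξ ⬝ᵥ (-x + toR z)) * (gs G (-x + toR z) : ℂ) * ee (ξ ⬝ᵥ x)
    rw [mul_right_comm, ← ee_add, ← dotProduct_add, mul_comm]
    congr 3 <;> abel
  rw [e1, e2]
  exact h

end

end Vale.Agent.P057G
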