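import Vale.Agent.P057G.Fib

/-!
Masks, orthogonal index sets, splitting of series in indicator form.
-/

open Matrix Finset Filter
open scoped Real Topology
open Vale.Agent.P267.H775

namespace Vale.Agent.P057G

noncomputable section

variable {ι : Type*} [DecidableEq ι]

/-- keep the coordinates in `q` -/
def msk (q : Finset ι) (u : ι → ℝ) : ι → ℝ := fun i => if i ∈ q then u i else 0

/-- coordinates in `r` from `x`, the others from `y` -/
def mix {α : Type*} (r : Finset ι) (x y : ι → α) : ι → α := fun i => if i ∈ r then x i else y i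

/-- overwrite the coordinates in `r` -/
def put {α : Type*} (r : Finset ι) (x : r → α) (y : ι → α) : ι → α :=
  fun i => if h : i ∈ r then x ⟨i, h⟩ else y i

/-- `q` is orthogonal to its complement -/
def Sat (G : Matrix ι ι ℝ) (q : Finset ι) : Prop := ∀ i j, i ∈ q → j ∉ q → G i j = 0

/-- the diagonal block on `q` -/
def blk (G : Matrix ι ι ℝ) (q : Finset ι) : Matrix q q ℝ := G.submatrix Subtype.val Subtype.val

theorem put_pos {α : Type*} {r : Finset ι} (x : r → α) (y : ι → α) {i : ι} (h : i ∈ r) :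
    put r x y i = x ⟨i, h⟩ := dif_pos h

theorem put_neg {α : Type*} {r : Finset ι} (x : r → α) (y : ι → α) {i : ι}
    (h : i ∉ r) : put r x y i = y i := dif_neg h

theorem put_coe {α : Type*} {r : Finset ι} (x : r → α) (y : ι → α) (i : r) :
    put r x y i = x i := dif_pos i.2

theorem mix_pos {α : Type*} {r : Finset ι} (x y : ι → α) {i : ι} (h : i ∈ r) :
    mix r x y i = x i := if_pos h

theorem mix_neg {α : Type*} {r : Finset ι} (x y : ι → α) {i : ι} (h : i ∉ r) :
    mix r x y i = y i := if_neg h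

theorem mix_self {α : Type*} (r : Finset ι) (x : ι → α) : mix r x x = x := by
  funext i; simp [mix]

theorem msk_pos {q : Finset ι} (u : ι → ℝ) {i : ι} (h : i ∈ q) : msk q u i = u i := if_pos h

theorem msk_neg {q : Finset ι} (u : ι → ℝ) {i : ι} (h : i ∉ q) : msk q u i = 0 := if_neg h

theorem msk_congr {q : Finset ι} {u w : ι → ℝ} (h : ∀ i ∈ q, u i = w i) : msk q u = msk q w := by
  funext i
  by_cases hi : i ∈ q
  · rw [msk_pos _ hi, msk_pos _ hi, h i hi]
  · rw [msk_neg _ hi, msk_neg _ hi]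

theorem toR_put (r : Finset ι) (x : r → ℤ) (y : ι → ℤ) :
    toR (put r x y) = put r (toR x) (toR y) := by
  funext i
  change ((put r x y i : ℤ) : ℝ) = _
  by_cases h : i ∈ r
  · rw [put_pos _ _ h, put_pos _ _ h]; rfl
  · rw [put_neg _ _ h, put_neg _ _ h]; rfl

theorem Sat.inter {G : Matrix ι ι ℝ} {q r : Finset ι} (hq : Sat G q) (hr : Sat G r) :
    Sat G (q ∩ r) := by
  intro i j hi hj
  rw [mem_inter] at hi
  by_cases h : j ∈ q
  · exact hr i j hi.2 fun h2 => hj (mem_inter.2 ⟨h, h2⟩)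
  · exact hq i j hi.1 h

omit [DecidableEq ι] in
theorem Sat.symm {G : Matrix ι ι ℝ} (hG : G.IsHermitian) {q : Finset ι} (hq : Sat G q)
    {i j : ι} (hi : i ∉ q) (hj : j ∈ q) : G i j = 0 := by
  have := hG.apply i j
  rw [hq j i hj hi] at this
  simpa using this.symm

theorem Sat.sdiff {G : Matrix ι ι ℝ} (hG : G.IsHermitian) {q r : Finset ι} (hq : Sat G q)
    (hr : Sat G r) : Sat G (q \ r) := by
  intro i j hi hj
  rw [Finset.mem_sdiff] at hi
  by_cases h : j ∈ q
  · exact hr.symm hG hi.2 (by by_contra h2; exact hj (Finset.mem_sdiff.2 ⟨h, h2⟩))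
  · exact hq i j hi.1 h

/-- splitting a series along a set of coordinates, indicator form -/
theorem hasSum_put (r : Finset ι) {E : Type*} [NormedAddCommGroup E] [CompleteSpace E]
    {W : (ι → ℤ) → E} (hW : Summable W) :
    (∀ y, Summable fun x => W (put r x y)) ∧
      HasSum (fun y : ι → ℤ => if ∀ i ∈ r, y i = 0 then ∑' x, W (put r x y) else 0)
        (∑' z, W z) := by
  obtain ⟨h1, h2⟩ := hasSum_glue (X := fun _ => ℤ) (fun i => i ∈ r) hW
  have hg : ∀ (x : r → ℤ) (y : ι → ℤ), put r x y = glue (fun i => i ∈ r) x fun i => y i := by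
    intro x y; funext i; rfl
  refine ⟨fun y => by simpa only [hg] using h1 _, ?_⟩
  let g : ({i // i ∉ r} → ℤ) → ι → ℤ := fun y => glue (fun i => i ∈ r) (fun _ => 0) y
  have hinj : Function.Injective g := by
    intro y y' h
    funext i
    have := congrFun h i
    simpa only [g, glue_neg (p := fun i => i ∈ r) _ _ i.2] using this
  rw [← hinj.hasSum_iff]
  · refine HasSum.congr_fun h2 fun y => ?_
    have hz : ∀ i ∈ r, g y i = 0 := fun i hi => glue_pos (p := fun i => i ∈ r) _ _ hi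
    simp only [Function.comp, if_pos hz, hg]
    congr 1; funext x; congr 2; funext i
    exact glue_neg (p := fun i => i ∈ r) _ _ i.2
  · intro y hy
    refine if_neg fun hz => hy ⟨fun i => y i, ?_⟩
    funext i
    by_cases h : i ∈ r
    · rw [hz i h]; exact glue_pos (p := fun i => i ∈ r) _ _ h
    · exact glue_neg (p := fun i => i ∈ r) _ _ h

omit [DecidableEq ι] in
theorem posDef_blk {G : Matrix ι ι ℝ} (hG : G.PosDef) (r : Finset ι) :
    (blk G r).PosDef := hG.submatrix Subtype.val_injective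

variable [Fintype ι]

theorem sum_sub (r : Finset ι) (f : ι → ℝ) :
    ∑ i : r, f i = ∑ i, if i ∈ r then f i else 0 := by
  rw [sum_coe_sort r f, ← sum_filter, filter_mem_eq_inter, univ_inter]

theorem qq_msk (G : Matrix ι ι ℝ) (r : Finset ι) (u : ι → ℝ) :
    qq G (msk r u) = qq (blk G r) fun i => u i := by
  unfold qq
  simp only [dotProduct, mulVec, blk, submatrix_apply]
  rw [sum_sub r fun i => u i * ∑ j : r, G i j * u j]
  refine sum_congr rfl fun i _ => ?_
  rw [sum_sub r fun j => G i j * u j]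
  by_cases h : i ∈ r
  · rw [if_pos h, msk_pos _ h]
    congr 1
    refine sum_congr rfl fun j _ => ?_
    simp only [msk]; split_ifs <;> simp
  · rw [if_neg h, msk_neg _ h, zero_mul]

theorem gs_msk (G : Matrix ι ι ℝ) (r : Finset ι) (u : ι → ℝ) :
    gs G (msk r u) = gs (blk G r) fun i => u i := by
  unfold gs; rw [qq_msk]

theorem bb_msk_orth {G : Matrix ι ι ℝ} {r s : Finset ι} (h : ∀ i ∈ r, ∀ j ∈ s, G i j = 0)
    (u w : ι → ℝ) : bb G (msk r u) (msk s w) = 0 := by
  unfold bb
  simp only [dotProduct, mulVec]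
  refine sum_eq_zero fun i _ => ?_
  by_cases hi : i ∈ r
  · rw [sum_eq_zero, mul_zero]
    intro j _
    by_cases hj : j ∈ s
    · rw [h i hi j hj, zero_mul]
    · rw [msk_neg _ hj, mul_zero]
  · rw [msk_neg _ hi, zero_mul]

/-- orthogonal splitting of a masked form -/
theorem qq_msk_split {G : Matrix ι ι ℝ} (hG : G.IsHermitian) {r : Finset ι} (hr : Sat G r)
    (q : Finset ι) (u : ι → ℝ) :
    qq G (msk q u) = qq G (msk (q ∩ r) u) + qq G (msk (q \ r) u) := by
  have h1 : msk q u = msk (q ∩ r) u + msk (q \ r) u := by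
    funext i
    simp only [msk, Pi.add_apply, mem_inter, Finset.mem_sdiff]
    by_cases a : i ∈ q <;> by_cases b : i ∈ r <;> simp [a, b]
  rw [h1, qq_add hG, bb_msk_orth fun i hi j hj => hr i j (mem_inter.1 hi).2 (Finset.mem_sdiff.1 hj).2]
  ring

theorem gs_msk_split {G : Matrix ι ι ℝ} (hG : G.IsHermitian) {r : Finset ι} (hr : Sat G r)
    (q : Finset ι) (u : ι → ℝ) :
    gs G (msk q u) = gs G (msk (q ∩ r) u) * gs G (msk (q \ r) u) := by
  unfold gs
  rw [qq_msk_split hG hr, ← Real.exp_add]; congr 1; ring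

/-- the volume of the block on `q` -/
def vl (G : Matrix ι ι ℝ) (q : Finset ι) : ℝ := vol (blk G q)

omit [Fintype ι] in
theorem vl_pos {G : Matrix ι ι ℝ} (hG : G.PosDef) (q : Finset ι) : 0 < vl G q :=
  vol_pos (posDef_blk hG q)

omit [Fintype ι] in
theorem vl_empty (G : Matrix ι ι ℝ) : vl G ∅ = 1 := by
  simp [vl, vol]

omit [Fintype ι] in
theorem vl_split {G : Matrix ι ι ℝ} (hG : G.PosDef) {r : Finset ι} (hr : Sat G r)
    (q : Finset ι) : vl G q = vl G (q ∩ r) * vl G (q \ r) := by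
  have h := twoBlockTriangular_det (blk G q) (fun i => (i : ι) ∈ r)
    fun i hi j hj => hr.symm hG.1 hi hj
  let a : {i : q // (i : ι) ∈ r} ≃ ↥(q ∩ r) :=
    ⟨fun i => ⟨i.1.1, mem_inter.2 ⟨i.1.2, i.2⟩⟩,
      fun i => ⟨⟨i.1, (mem_inter.1 i.2).1⟩, (mem_inter.1 i.2).2⟩, fun _ => rfl, fun _ => rfl⟩
  let b : {i : q // ¬ (i : ι) ∈ r} ≃ ↥(q \ r) :=
    ⟨fun i => ⟨i.1.1, Finset.mem_sdiff.2 ⟨i.1.2, i.2⟩⟩,
      fun i => ⟨⟨i.1, (Finset.mem_sdiff.1 i.2).1⟩, (Finset.mem_sdiff.1 i.2).2⟩, fun _ => rfl, fun _ => rfl⟩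
  have e1 : ((blk G q).toSquareBlockProp fun i => (i : ι) ∈ r).det = (blk G (q ∩ r)).det := by
    rw [← det_submatrix_equiv_self a]; rfl
  have e2 : ((blk G q).toSquareBlockProp fun i => ¬ (i : ι) ∈ r).det = (blk G (q \ r)).det := by
    rw [← det_submatrix_equiv_self b]; rfl
  unfold vl vol
  rw [← mul_inv, ← Real.sqrt_mul (posDef_blk hG _).det_pos.le, ← e1, ← e2, h]

theorem vl_univ (G : Matrix ι ι ℝ) : vl G univ = vol G := by
  unfold vl vol
  rw [← det_submatrix_equiv_self (Equiv.subtypeUnivEquiv (fun i : ι => mem_univ i)) G]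
  rfl

end

end Vale.Agent.P057G
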