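import Vale.Agent.P057G.Ms2

/-!
Masses of systems: fibre formulas, positivity of biases, Poisson summation in a top block.
-/

open Matrix Finset Filter
open scoped Real Topology
open Vale.Agent.P267.H775

namespace Vale.Agent.P057G

noncomputable section

variable {V ι : Type*} [DecidableEq ι] [Fintype ι] [DecidableEq V] {S : MS V ι}

namespace MS

theorem Ok.summable_cx (h : S.Ok) (q : Finset ι) {f : (ι → ℤ) → ℂ} {C : ℝ}
    (hf : ∀ z, ‖f z‖ ≤ C) : Summable fun z => (S.wt q z : ℂ) * f z :=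
  summable_mul_cx (h.summable q) (wt_nonneg q) hf

theorem Ok.summable_re (h : S.Ok) (q : Finset ι) {f : (ι → ℤ) → ℝ} {C : ℝ}
    (hf : ∀ z, |f z| ≤ C) : Summable fun z => S.wt q z * f z :=
  summable_mul_real (h.summable q) (wt_nonneg q) hf

/-- summation over the fibre of a vertex, real functions -/
theorem Ok.hasSum_fibre (h : S.Ok) (q : Finset ι) (v : V) {F : (ι → ℤ) → ℝ}
    (hF : Summable fun z => S.wt q z * F z) :
    HasSum (fun y => S.wt (q \ S.st v) y * ∑' x, gs (S.fg q v (toR y))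
      (toR x - S.fcn q v (toR y)) * F (put (q ∩ S.st v) x y)) (∑' z, S.wt q z * F z) :=
  hasSum_split (E := ℝ) (h.wt_fibre q v) hF

/-- summation over the fibre of a vertex, complex functions -/
theorem Ok.hasSum_fibre_cx (h : S.Ok) (q : Finset ι) (v : V) {F : (ι → ℤ) → ℂ}
    (hF : Summable fun z => (S.wt q z : ℂ) * F z) :
    HasSum (fun y => (S.wt (q \ S.st v) y : ℂ) * ∑' x, (gs (S.fg q v (toR y))
      (toR x - S.fcn q v (toR y)) : ℂ) * F (put (q ∩ S.st v) x y))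
      (∑' z, (S.wt q z : ℂ) * F z) := by
  have := hasSum_split (E := ℂ) (F := F) (h.wt_fibre q v)
    (by simpa only [Complex.real_smul] using hF)
  simpa only [Complex.real_smul] using this

theorem Ok.hasSum_th (h : S.Ok) (q : Finset ι) (v : V) :
    HasSum (fun y => S.wt (q \ S.st v) y * th (S.fg q v (toR y)) (S.fcn q v (toR y)))
      (∑' z, S.wt q z) := by
  have := h.hasSum_fibre q v (F := fun _ => 1) (by simpa only [mul_one] using h.summable q)
  simpa only [mul_one, th] using this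

theorem Ok.vl_st (h : S.Ok) (q : Finset ι) (v : V) :
    vl S.G q = vl S.G (q ∩ S.st v) * vl S.G (q \ S.st v) := vl_split h.pd (h.sat_st v) q

/-- the mass is the mean of the dual theta value of the fibres -/
theorem Ok.hasSum_dual (h : S.Ok) (hc : S.Cen) (q : Finset ι) (v : V) :
    HasSum (fun y => S.wt (q \ S.st v) y * th (S.fg q v (toR y))⁻¹ 0)
      (S.mass q * vl S.G (q \ S.st v)) := by
  have h1 := (h.hasSum_th q v).div_const (vl S.G (q ∩ S.st v))
  have h2 := (vl_pos h.pd (q ∩ S.st v)).ne'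
  have h3 := (vl_pos h.pd (q \ S.st v)).ne'
  have h4 : S.mass q * vl S.G (q \ S.st v) = (∑' z, S.wt q z) / vl S.G (q ∩ S.st v) := by
    rw [mass, h.vl_st q v]; field_simp
  rw [h4]
  refine HasSum.congr_fun h1 fun y => ?_
  rw [hc.fcn, th_zero_eq (h.fg_pos q v _), h.vol_fg]
  field_simp

theorem Ok.hasSum_wt (h : S.Ok) (q : Finset ι) : HasSum (S.wt q) (S.mass q * vl S.G q) := by
  rw [mass, div_mul_cancel₀ _ (vl_pos h.pd q).ne']
  exact (h.summable q).hasSum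

/-- the mean defect of fineness of the fibres is the mass increment -/
theorem Ok.hasSum_defect (h : S.Ok) (hc : S.Cen) (q : Finset ι) (v : V) :
    HasSum (fun y => S.wt (q \ S.st v) y * (th (S.fg q v (toR y))⁻¹ 0 - 1))
      ((S.mass q - S.mass (q \ S.st v)) * vl S.G (q \ S.st v)) := by
  have := (h.hasSum_dual hc q v).sub (h.hasSum_wt (q \ S.st v))
  rw [sub_mul]
  exact HasSum.congr_fun this fun y => by ring

/-- the slopes of a phase along the fibre -/
def fsl (S : MS V ι) (q : Finset ι) (v : V) (θ : (ι → ℝ) → ℝ) (y : ι → ℝ) :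
    ↥(q ∩ S.st v) → ℝ := fun j => slp (S.st v) θ y j

theorem aff_put (q : Finset ι) (v : V) {θ : (ι → ℝ) → ℝ} (hθ : Aff (S.st v) θ) {y : ι → ℤ}
    (hy : S.wt (q \ S.st v) y ≠ 0) (x : ↥(q ∩ S.st v) → ℤ) :
    θ (toR (put (q ∩ S.st v) x y)) =
      θ (mix (S.st v) 0 (toR y)) + S.fsl q v θ (toR y) ⬝ᵥ toR x := by
  rw [toR_put, hθ.put_eq inter_subset_right]
  · rfl
  · intro i hi _
    by_contra h0
    exact hy (wt_eq_zero (i := i) (fun h => (Finset.mem_sdiff.1 h).2 hi)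
      fun h => h0 (by rw [toR_apply, h, Int.cast_zero]))

/-- the bias of a phase linear over a vertex is a positive series -/
theorem Ok.hasSum_bias (h : S.Ok) (hc : S.Cen) (q : Finset ι) (v : V) {θ : (ι → ℝ) → ℝ}
    (hθ : Lin (S.st v) θ) :
    HasSum (fun y => ((S.wt (q \ S.st v) y * (vl S.G (q ∩ S.st v) *
        th (S.fg q v (toR y))⁻¹ (S.fsl q v θ (toR y))) : ℝ) : ℂ))
      (∑' z, (S.wt q z : ℂ) * ee (θ (toR z))) := by
  refine HasSum.congr_fun (h.hasSum_fibre_cx q v (F := fun z => ee (θ (toR z)))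
    (h.summable_cx q (C := 1) fun z => (norm_ee _).le)) fun y => ?_
  by_cases hy : S.wt (q \ S.st v) y = 0
  · simp [hy]
  · rw [Complex.ofReal_mul, ← h.vol_fg q v (toR y), ← (hasSum_tw_zero (h.fg_pos q v _) _).tsum_eq]
    congr 2; funext x
    rw [aff_put q v hθ.aff hy, hθ.zero, zero_add, hc.fcn, sub_zero]

/-- the bias as a real number -/
def bias (S : MS V ι) (q : Finset ι) (θ : (ι → ℝ) → ℝ) : ℝ :=
  ∑' z, S.wt q z * Real.cos (2 * π * θ (toR z))

theorem Ok.re_bias (h : S.Ok) (q : Finset ι) (θ : (ι → ℝ) → ℝ) :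
    (∑' z, (S.wt q z : ℂ) * ee (θ (toR z))).re = S.bias q θ := by
  rw [Complex.re_tsum (h.summable_cx q (C := 1) fun z => (norm_ee _).le), bias]
  simp only [Complex.re_ofReal_mul, ee_re]

theorem Ok.hasSum_bias_re (h : S.Ok) (hc : S.Cen) (q : Finset ι) (v : V) {θ : (ι → ℝ) → ℝ}
    (hθ : Lin (S.st v) θ) :
    HasSum (fun y => S.wt (q \ S.st v) y * (vl S.G (q ∩ S.st v) *
        th (S.fg q v (toR y))⁻¹ (S.fsl q v θ (toR y)))) (S.bias q θ) := by
  have := Complex.hasSum_re (h.hasSum_bias hc q v hθ)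
  rw [h.re_bias] at this
  simpa only [Complex.ofReal_re] using this

theorem Ok.tsum_ee (h : S.Ok) (hc : S.Cen) (q : Finset ι) (v : V) {θ : (ι → ℝ) → ℝ}
    (hθ : Lin (S.st v) θ) : ∑' z, (S.wt q z : ℂ) * ee (θ (toR z)) = (S.bias q θ : ℂ) :=
  (h.hasSum_bias hc q v hθ).unique (Complex.hasSum_ofReal.2 (h.hasSum_bias_re hc q v hθ))

theorem Ok.bias_nonneg (h : S.Ok) (hc : S.Cen) (q : Finset ι) (v : V) {θ : (ι → ℝ) → ℝ}
    (hθ : Lin (S.st v) θ) : 0 ≤ S.bias q θ :=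
  (h.hasSum_bias_re hc q v hθ).nonneg fun _ =>
    mul_nonneg (wt_nonneg _ _) (mul_nonneg (vl_pos h.pd _).le (th_nonneg _ _))

theorem Ok.bias_le (h : S.Ok) (q : Finset ι) (θ : (ι → ℝ) → ℝ) :
    S.bias q θ ≤ ∑' z, S.wt q z :=
  (h.summable_re q (C := 1) fun _ => Real.abs_cos_le_one _).tsum_le_tsum
    (fun _ => mul_le_of_le_one_right (wt_nonneg _ _) (Real.cos_le_one _)) (h.summable q)

/-- an affine phase against a function of the other variables, any centres -/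
theorem Ok.norm_tw_le (h : S.Ok) (q : Finset ι) (v : V) {θ : (ι → ℝ) → ℝ}
    (hθ : Aff (S.st v) θ) {f : (ι → ℤ) → ℂ} {C : ℝ} (hf : ∀ z, ‖f z‖ ≤ C)
    (hi : ∀ x y, f (put (q ∩ S.st v) x y) = f y) {B : ℝ}
    (hB : HasSum (fun y => S.wt (q \ S.st v) y * (‖f y‖ * (vl S.G (q ∩ S.st v) *
        th (S.fg q v (toR y))⁻¹ (S.fsl q v θ (toR y))))) B) :
    ‖∑' z, (S.wt q z : ℂ) * (f z * ee (θ (toR z)))‖ ≤ B := by
  refine (h.hasSum_fibre_cx q v (F := fun z => f z * ee (θ (toR z)))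
    (h.summable_cx q (C := C) fun z => by rw [norm_mul, norm_ee, mul_one]; exact hf z)
    ).norm_le_of_bounded hB fun y => ?_
  by_cases hy : S.wt (q \ S.st v) y = 0
  · simp [hy]
  · rw [norm_mul, Complex.norm_real, Real.norm_of_nonneg (wt_nonneg _ _)]
    refine mul_le_mul_of_nonneg_left ?_ (wt_nonneg _ _)
    simp only [hi, aff_put q v hθ hy, ee_add]
    have : ∀ x : ↥(q ∩ S.st v) → ℤ, (gs (S.fg q v (toR y)) (toR x - S.fcn q v (toR y)) : ℂ) *
        (f y * (ee (θ (mix (S.st v) 0 (toR y))) * ee (S.fsl q v θ (toR y) ⬝ᵥ toR x))) =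
        f y * ee (θ (mix (S.st v) 0 (toR y))) *
        ((gs (S.fg q v (toR y)) (toR x - S.fcn q v (toR y)) : ℂ) *
          ee (S.fsl q v θ (toR y) ⬝ᵥ toR x)) := fun x => by ring
    simp only [this]
    rw [tsum_mul_left, norm_mul, norm_mul, norm_ee, mul_one, ← h.vol_fg q v (toR y)]
    exact mul_le_mul_of_nonneg_left (P057G.norm_tw_le (h.fg_pos q v _) _ _) (norm_nonneg _)

/-- summation over a top block -/
theorem Ok.tsum_top (h : S.Ok) {q D : Finset ι} (hD : Sat S.G D)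
    (hd : ∀ i ∈ q, ∀ j ∈ q ∩ D, ¬ S.Dep i j) {f : (ι → ℤ) → ℂ} {C : ℝ} (hf : ∀ z, ‖f z‖ ≤ C)
    (hi : ∀ x y, f (put (q ∩ D) x y) = f y) :
    ∑' z, (S.wt q z : ℂ) * f z = ∑' y, (S.wt (q \ D) y : ℂ) *
      (f y * th (blk S.G (q ∩ D)) fun i : ↥(q ∩ D) => S.p (toR y) i) := by
  have h1 := hasSum_split (E := ℂ) (F := f) (h.wt_top hD hd)
    (by simpa only [Complex.real_smul] using h.summable_cx q hf)
  simp only [Complex.real_smul, hi] at h1
  rw [← h1.tsum_eq]
  congr 1; funext y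
  rw [tsum_mul_right, th, Complex.ofReal_tsum, mul_comm (f y)]

/-- Poisson summation in a top block -/
theorem Ok.hasSum_top (h : S.Ok) {q D : Finset ι} (hD : Sat S.G D)
    (hd : ∀ i ∈ q, ∀ j ∈ q ∩ D, ¬ S.Dep i j) {f : (ι → ℤ) → ℂ} {C : ℝ} (hf : ∀ z, ‖f z‖ ≤ C)
    (hi : ∀ x y, f (put (q ∩ D) x y) = f y) :
    HasSum (fun k : ↥(q ∩ D) → ℤ => ((vl S.G (q ∩ D) * gs (blk S.G (q ∩ D))⁻¹ (toR k) : ℝ) : ℂ) *
        ∑' y, (S.wt (q \ D) y : ℂ) * (f y * ee (∑ i : ↥(q ∩ D), k i * S.p (toR y) i)))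
      (∑' z, (S.wt q z : ℂ) * f z) := by
  rw [h.tsum_top hD hd hf hi]
  exact hasSum_fib (h.summable _) (wt_nonneg _) hf (posDef_blk h.pd _) _

/-- real form of the Poisson expansion of the mass -/
theorem Ok.hasSum_top_re (h : S.Ok) {q D : Finset ι} (hD : Sat S.G D)
    (hd : ∀ i ∈ q, ∀ j ∈ q ∩ D, ¬ S.Dep i j) :
    HasSum (fun k : ↥(q ∩ D) → ℤ => vl S.G (q ∩ D) * gs (blk S.G (q ∩ D))⁻¹ (toR k) *
        S.bias (q \ D) fun z => ∑ i : ↥(q ∩ D), k i * S.p z i) (∑' z, S.wt q z) := by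
  have h1 := Complex.hasSum_re (h.hasSum_top hD hd (f := fun _ => 1) (C := 1) (by simp)
    fun _ _ => rfl)
  simp only [one_mul, mul_one, Complex.re_ofReal_mul, ← Complex.ofReal_tsum,
    Complex.ofReal_re] at h1
  refine HasSum.congr_fun h1 fun k => ?_
  rw [h.re_bias (q \ D) fun z => ∑ i : ↥(q ∩ D), k i * S.p z i]

omit [DecidableEq V] in
theorem bias_zero (q : Finset ι) {θ : (ι → ℝ) → ℝ} (hθ : ∀ z, θ z = 0) :
    S.bias q θ = ∑' z, S.wt q z := by
  simp [bias, hθ]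

end MS

end

end Vale.Agent.P057G
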