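import Vale.Agent.P057G.Ms3

/-!
Monotonicity of the mass of centred systems under deletion and narrowing.
-/

open Matrix Finset Filter
open scoped Real Topology
open Vale.Agent.P267.H775

namespace Vale.Agent.P057G

noncomputable section

variable {V ι : Type*} [DecidableEq ι] [Fintype ι] [DecidableEq V] {S : MS V ι}

namespace MS

theorem Ok.lin (h : S.Ok) (hc : S.Cen) {v : V} {i : ι} (hi : v ∈ S.fc i) :
    Lin (S.st v) fun z => S.p z i := (h.aff v i hi).lin (hc.zero v i hi)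

omit [DecidableEq V] in
theorem mass_empty : S.mass ∅ = 1 := by
  rw [mass, vl_empty, div_one, tsum_eq_single 0]
  · have : msk (∅ : Finset ι) (S.ps 0) = 0 := funext fun i => msk_neg _ (notMem_empty i)
    rw [wt, if_pos (by simp), this, gs_zero]
  · intro z hz
    obtain ⟨i, hi⟩ := Function.ne_iff.1 hz
    exact wt_eq_zero (notMem_empty i) hi

theorem Ok.mass_nonneg (h : S.Ok) (q : Finset ι) : 0 ≤ S.mass q :=
  div_nonneg (tsum_nonneg (wt_nonneg q)) (vl_pos h.pd q).le

/-- each frequency of a top block over a common vertex contributes a nonnegative term -/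
theorem Ok.top_term_le (h : S.Ok) (hc : S.Cen) {q D : Finset ι} (hD : Sat S.G D)
    (hd : ∀ i ∈ q, ∀ j ∈ q ∩ D, ¬ S.Dep i j) {v : V} (hv : ∀ i ∈ q ∩ D, v ∈ S.fc i)
    (K : Finset (↥(q ∩ D) → ℤ)) :
    ∑ k ∈ K, gs (blk S.G (q ∩ D))⁻¹ (toR k) *
      S.bias (q \ D) (fun z => ∑ i : ↥(q ∩ D), k i * S.p z i) ≤ S.mass q * vl S.G (q \ D) := by
  have h1 := sum_le_hasSum K (fun k _ => mul_nonneg (mul_pos (vl_pos h.pd _) (gs_pos _ _)).le
    (h.bias_nonneg hc (q \ D) v (Lin.sum univ (fun i : ↥(q ∩ D) => (k i : ℝ))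
      fun i _ => h.lin hc (hv i i.2)))) (h.hasSum_top_re hD hd)
  rw [(h.hasSum_wt q).tsum_eq, vl_split h.pd hD q] at h1
  simp only [mul_assoc, ← mul_sum] at h1
  rw [mul_left_comm] at h1
  exact le_of_mul_le_mul_left h1 (vl_pos h.pd _)

/-- deleting a top block over a common vertex does not increase the mass -/
theorem Ok.mass_del (h : S.Ok) (hc : S.Cen) {q D : Finset ι} (hD : Sat S.G D)
    (hd : ∀ i ∈ q, ∀ j ∈ q ∩ D, ¬ S.Dep i j) {v : V} (hv : ∀ i ∈ q ∩ D, v ∈ S.fc i) :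
    S.mass (q \ D) ≤ S.mass q := by
  have h1 := h.top_term_le hc hD hd hv {0}
  rw [sum_singleton, toR_zero, gs_zero, one_mul, bias_zero _ (by simp),
    (h.hasSum_wt _).tsum_eq] at h1
  exact le_of_mul_le_mul_right h1 (vl_pos h.pd _)

/-- a nonzero frequency of a top block has small bias -/
theorem Ok.bias_top_le (h : S.Ok) (hc : S.Cen) {q D : Finset ι} (hD : Sat S.G D)
    (hd : ∀ i ∈ q, ∀ j ∈ q ∩ D, ¬ S.Dep i j) {v : V} (hv : ∀ i ∈ q ∩ D, v ∈ S.fc i)
    {k : ↥(q ∩ D) → ℤ} (hk : k ≠ 0) :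
    gs (blk S.G (q ∩ D))⁻¹ (toR k) * S.bias (q \ D) (fun z => ∑ i : ↥(q ∩ D), k i * S.p z i) ≤
      (S.mass q - S.mass (q \ D)) * vl S.G (q \ D) := by
  classical
  have h1 := h.top_term_le hc hD hd hv {0, k}
  rw [sum_pair hk.symm, toR_zero, gs_zero, one_mul, bias_zero _ (by simp),
    (h.hasSum_wt _).tsum_eq] at h1
  linarith

/-- **monotonicity of the mass** under passing to a closed subsystem -/
theorem Ok.mass_mono (h : S.Ok) (hc : S.Cen) {q' : Finset ι} (hq' : Sat S.G q') :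
    ∀ (q : Finset ι), Sat S.G q → q' ⊆ q → (∀ i ∈ q', ∀ j ∈ q, S.Dep i j → j ∈ q') →
      S.mass q' ≤ S.mass q := by
  intro q
  induction q using Finset.strongInduction with
  | H q ih =>
    intro hq hsub hcl
    rcases (q \ q').eq_empty_or_nonempty with he | hne
    · rw [Subset.antisymm hsub (sdiff_eq_empty_iff_subset.1 he)]
    obtain ⟨j0, hj0, hmax⟩ := exists_max_image (q \ q') S.lv hne
    set D := (q \ q') ∩ univ.filter fun j => S.fc j = S.fc j0 ∧ S.lv j = S.lv j0 with hDdef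
    have hmem : ∀ j, j ∈ D ↔ (j ∈ q ∧ j ∉ q') ∧ S.fc j = S.fc j0 ∧ S.lv j = S.lv j0 := by
      intro j; simp [hDdef]
    have hD : Sat S.G D := (hq.sdiff h.pd.1 hq').inter (h.sat fun i j e1 e2 hi => by
      simp only [mem_filter, mem_univ, true_and] at hi ⊢
      exact ⟨e1 ▸ hi.1, e2 ▸ hi.2⟩)
    obtain ⟨v, hv⟩ := hc.ne j0
    have hj0D : j0 ∈ D := (hmem j0).2 ⟨Finset.mem_sdiff.1 hj0, rfl, rfl⟩
    refine le_trans (ih (q \ D) ?_ (hq.sdiff h.pd.1 hD) ?_ ?_) (h.mass_del hc hD ?_ (v := v) ?_)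
    · exact sdiff_ssubset (fun j hj => ((hmem j).1 hj).1.1) ⟨j0, hj0D⟩
    · exact fun i hi => Finset.mem_sdiff.2 ⟨hsub hi, fun hiD => ((hmem i).1 hiD).1.2 hi⟩
    · exact fun i hi j hj => hcl i hi j (Finset.mem_sdiff.1 hj).1
    · intro i hi j hj hdep
      have hj' := (hmem j).1 (mem_inter.1 hj).2
      by_cases hi' : i ∈ q'
      · exact hj'.1.2 (hcl i hi' j hj'.1.1 hdep)
      · have := hmax i (Finset.mem_sdiff.2 ⟨hi, hi'⟩)
        have := hdep.2
        omega
    · intro i hi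
      rw [((hmem i).1 (mem_inter.1 hi).2).2.1]; exact hv

theorem Ok.one_le_mass (h : S.Ok) (hc : S.Cen) {q : Finset ι} (hq : Sat S.G q) : 1 ≤ S.mass q := by
  rw [← mass_empty (S := S)]
  exact h.mass_mono hc (fun _ _ hi => absurd hi (notMem_empty _)) q hq (empty_subset _)
    fun _ hi => absurd hi (notMem_empty _)

/-- the same system with another Gram matrix -/
def gram (S : MS V ι) (G : Matrix ι ι ℝ) : MS V ι := { S with G := G }

theorem Ok.gram (h : S.Ok) {G : Matrix ι ι ℝ} (hG : G.PosDef)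
    (ho : ∀ i j, G i j ≠ 0 → S.fc i = S.fc j ∧ S.lv i = S.lv j) : (S.gram G).Ok :=
  ⟨hG, ho, h.loc, h.aff⟩

theorem Cen.gram (h : S.Cen) (G : Matrix ι ι ℝ) : (S.gram G).Cen := ⟨h.ne, h.zero⟩

omit [DecidableEq V] in
theorem wt_gram {G : Matrix ι ι ℝ} {q : Finset ι} (hG : blk G q = blk S.G q) (z : ι → ℤ) :
    (S.gram G).wt q z = S.wt q z := by
  unfold wt
  rw [gs_msk, gs_msk]
  change (if _ then gs (blk G q) _ else _) = _
  rw [hG]; rfl

/-- narrowing over one vertex -/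
theorem Ok.mass_narrow_st (h : S.Ok) (hc : S.Cen) {G : Matrix ι ι ℝ} (h' : (S.gram G).Ok)
    (q : Finset ι) (v : V) (he : blk G (q \ S.st v) = blk S.G (q \ S.st v))
    (hle : ∀ x, qq (blk S.G (q ∩ S.st v)) x ≤ qq (blk G (q ∩ S.st v)) x) :
    S.mass q ≤ (S.gram G).mass q := by
  have h1 := h.hasSum_dual hc q v
  have h2 := h'.hasSum_dual (hc.gram G) q v
  have h3 : vl (S.gram G).G (q \ (S.gram G).st v) = vl S.G (q \ S.st v) := congrArg vol he
  rw [h3] at h2
  refine le_of_mul_le_mul_right (hasSum_le (fun y => ?_) h1 h2) (vl_pos h.pd _)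
  rw [show (S.gram G).wt (q \ (S.gram G).st v) y = S.wt (q \ S.st v) y from wt_gram he y]
  refine mul_le_mul_of_nonneg_left (th_inv_mono (h.fg_pos q v _) (h'.fg_pos q v _)
    (fun x => ?_) 0) (wt_nonneg _ _)
  exact (qq_conj _ _ x).trans_le ((hle _).trans_eq (qq_conj _ _ x).symm)

end MS

/-- rows in `A` from `H`, the others from `G` -/
def hyb (A : Finset ι) (G H : Matrix ι ι ℝ) : Matrix ι ι ℝ :=
  Matrix.of fun i j => if i ∈ A then H i j else G i j

theorem qq_split {G : Matrix ι ι ℝ} (hG : G.IsHermitian) {A : Finset ι} (hA : Sat G A)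
    (x : ι → ℝ) : qq G x = qq G (msk A x) + qq G (msk (univ \ A) x) := by
  have := qq_msk_split hG hA univ x
  rwa [univ_inter, show msk univ x = x from funext fun i => msk_pos _ (mem_univ i)] at this

omit [Fintype ι] in
theorem blk_hyb_in {A r : Finset ι} (hr : r ⊆ A) (G H : Matrix ι ι ℝ) :
    blk (hyb A G H) r = blk H r := by
  ext i j; exact if_pos (hr i.2)

omit [Fintype ι] in
theorem blk_hyb_out {A r : Finset ι} (hr : ∀ i ∈ r, i ∉ A) (G H : Matrix ι ι ℝ) :
    blk (hyb A G H) r = blk G r := by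
  ext i j; exact if_neg (hr i i.2)

omit [Fintype ι] in
theorem herm_hyb {A : Finset ι} {G H : Matrix ι ι ℝ} (hG : G.IsHermitian) (hH : H.IsHermitian)
    (h1 : Sat G A) (h2 : Sat H A) : (hyb A G H).IsHermitian := by
  refine IsHermitian.ext fun i j => ?_
  simp only [hyb, of_apply, star_trivial]
  have a := hG.apply i j
  have b := hH.apply i j
  simp only [star_trivial] at a b
  by_cases hi : i ∈ A <;> by_cases hj : j ∈ A
  · rw [if_pos hi, if_pos hj, b]
  · rw [if_pos hi, if_neg hj, h2 i j hi hj, h1.symm hG hj hi]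
  · rw [if_neg hi, if_pos hj, h2 j i hj hi, h1.symm hG hi hj]
  · rw [if_neg hi, if_neg hj, a]

theorem qq_hyb {A : Finset ι} {G H : Matrix ι ι ℝ} (hG : G.IsHermitian) (hH : H.IsHermitian)
    (h1 : Sat G A) (h2 : Sat H A) (x : ι → ℝ) :
    qq (hyb A G H) x = qq H (msk A x) + qq G (msk (univ \ A) x) := by
  have h3 : Sat (hyb A G H) A := fun i j hi hj => (if_pos hi).trans (h2 i j hi hj)
  rw [qq_split (herm_hyb hG hH h1 h2) h3, qq_msk, qq_msk, qq_msk, qq_msk,
    blk_hyb_in Subset.rfl, blk_hyb_out fun i hi => (Finset.mem_sdiff.1 hi).2]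

omit [DecidableEq ι] in
theorem posDef_of_le {G H : Matrix ι ι ℝ} (hG : G.PosDef) (hH : H.IsHermitian)
    (h : ∀ x, qq G x ≤ qq H x) : H.PosDef := by
  refine PosDef.of_dotProduct_mulVec_pos hH fun x hx => ?_
  have h1 := hG.dotProduct_mulVec_pos hx
  simp only [star_trivial] at h1 ⊢
  exact h1.trans_le (h x)

theorem qq_blk_le {G H : Matrix ι ι ℝ} (h : ∀ x, qq G x ≤ qq H x) (r : Finset ι) (x : r → ℝ) :
    qq (blk G r) x ≤ qq (blk H r) x := by
  have h1 := h (msk r (put r x 0))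
  rw [qq_msk, qq_msk] at h1
  simpa only [put_coe] using h1

/-- **monotonicity of the mass** under narrowing -/
theorem MS.Ok.mass_narrow (h : S.Ok) (hc : S.Cen) {H : Matrix ι ι ℝ} (h' : (S.gram H).Ok)
    (hle : ∀ x, qq S.G x ≤ qq H x) (q : Finset ι) : S.mass q ≤ (S.gram H).mass q := by
  have hH : H.PosDef := h'.pd
  set A : Finset V → Finset ι := fun T => univ.filter fun i => ∃ v ∈ T, v ∈ S.fc i with hA
  have hmem : ∀ T i, i ∈ A T ↔ ∃ v ∈ T, v ∈ S.fc i := fun T i => by simp [hA]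
  have s1 : ∀ T, Sat S.G (A T) := fun T => h.sat fun i j e _ hi =>
    (hmem T j).2 (e ▸ (hmem T i).1 hi)
  have s2 : ∀ T, Sat H (A T) := fun T => h'.sat fun i j e _ hi =>
    (hmem T j).2 ((show S.fc i = S.fc j from e) ▸ (hmem T i).1 hi)
  have lo : ∀ T x, qq S.G x ≤ qq (hyb (A T) S.G H) x := fun T x => by
    rw [qq_hyb h.pd.1 hH.1 (s1 T) (s2 T), qq_split h.pd.1 (s1 T) x]
    linarith [hle (msk (A T) x)]
  have hi : ∀ T x, qq (hyb (A T) S.G H) x ≤ qq H x := fun T x => by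
    rw [qq_hyb h.pd.1 hH.1 (s1 T) (s2 T), qq_split hH.1 (s2 T) x]
    linarith [hle (msk (univ \ A T) x)]
  have ok : ∀ T, (S.gram (hyb (A T) S.G H)).Ok := fun T =>
    h.gram (posDef_of_le h.pd (herm_hyb h.pd.1 hH.1 (s1 T) (s2 T)) (lo T)) fun i j hij => by
      by_cases hi : i ∈ A T
      · exact h'.orth i j fun e => hij ((if_pos hi).trans e)
      · exact h.orth i j fun e => hij ((if_neg hi).trans e)
  have key : ∀ T, S.mass q ≤ (S.gram (hyb (A T) S.G H)).mass q := by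
    intro T
    induction T using Finset.induction_on with
    | empty =>
      have : hyb (A ∅) S.G H = S.G := by
        ext i j; exact if_neg (by simp [hmem])
      rw [this]; exact le_rfl
    | insert v T _ ih =>
      refine ih.trans ((ok T).mass_narrow_st (hc.gram _) (G := hyb (A (insert v T)) S.G H)
        (ok (insert v T)) q v ?_ fun x => ?_)
      · ext i j
        have hv : v ∉ S.fc i := fun hv => (Finset.mem_sdiff.1 i.2).2 (S.mem_st.2 hv)
        have : (i : ι) ∈ A (insert v T) ↔ (i : ι) ∈ A T := by simp [hmem, hv]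
        change (if _ then _ else _) = if _ then _ else _
        simp only [this]
      · rw [blk_hyb_in (A := A (insert v T)) (r := q ∩ (S.gram (hyb (A T) S.G H)).st v)
          fun i hi => (hmem _ i).2 ⟨v, mem_insert_self _ _, S.mem_st.1 (mem_inter.1 hi).2⟩]
        exact qq_blk_le (hi T) _ x
  have := key (univ.biUnion S.fc)
  have e : hyb (A (univ.biUnion S.fc)) S.G H = H := by
    ext i j
    obtain ⟨v, hv⟩ := hc.ne i
    exact if_pos ((hmem _ i).2 ⟨v, mem_biUnion.2 ⟨i, mem_univ _, hv⟩, hv⟩)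
  rwa [e] at this

end

end Vale.Agent.P057G
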