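import Vale.Agent.P057G.Ms4

/-!
Linearisation: affine systems are dominated by their centred symbols.
-/

open Matrix Finset Filter
open scoped Real Topology
open Vale.Agent.P267.H775

namespace Vale.Agent.P057G

noncomputable section

variable {V ι : Type*} [DecidableEq ι]

theorem mix_mix_comm {α : Type*} (r s : Finset ι) (a x y : ι → α) :
    mix r a (mix s x y) = mix s (mix r a x) (mix r a y) := by
  funext i; simp only [mix]; split_ifs <;> rfl

theorem mix_mix {α : Type*} (r : Finset ι) (a x y : ι → α) : mix r a (mix r x y) = mix r a y := by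
  funext i; simp only [mix]; split_ifs <;> rfl

theorem mix_zero_zero (r : Finset ι) : mix r (0 : ι → ℝ) 0 = 0 := mix_self r 0

theorem isLinearMap_mix (r : Finset ι) : IsLinearMap ℝ fun x : ι → ℝ => mix r 0 x := by
  constructor
  · intro a b; funext i; simp only [mix, Pi.add_apply]; split_ifs <;> simp
  · intro a b; funext i; simp only [mix, Pi.smul_apply]; split_ifs <;> simp

theorem Aff.sub {r : Finset ι} {θ φ : (ι → ℝ) → ℝ} (h1 : Aff r θ) (h2 : Aff r φ) :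
    Aff r fun z => θ z - φ z := by
  intro y
  constructor
  · intro a b
    have := (h1 y).map_add a b
    have := (h2 y).map_add a b
    linarith
  · intro a b
    have e1 := (h1 y).map_smul a b
    have e2 := (h2 y).map_smul a b
    simp only [smul_eq_mul] at e1 e2 ⊢
    linear_combination e1 - e2

/-- killing a set of coordinates keeps affinity -/
theorem Aff.kill {r : Finset ι} {θ : (ι → ℝ) → ℝ} (h : Aff r θ) (s : Finset ι) :
    Aff r fun z => θ (mix s 0 z) := by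
  intro y
  simp only [mix_mix_comm s r, mix_zero_zero]
  constructor
  · intro a b
    rw [(isLinearMap_mix s).map_add]; exact (h _).map_add _ _
  · intro a b
    rw [(isLinearMap_mix s).map_smul]; exact (h _).map_smul _ _

theorem Aff.lin_part {r : Finset ι} {θ : (ι → ℝ) → ℝ} (h : Aff r θ) :
    Lin r fun z => θ z - θ (mix r 0 z) :=
  (h.sub (h.kill r)).lin fun y => by rw [mix_mix, sub_self]

theorem slp_lin_part (r : Finset ι) (θ : (ι → ℝ) → ℝ) (y : ι → ℝ) (j : ι) :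
    slp r (fun z => θ z - θ (mix r 0 z)) y j = slp r θ y j := by
  simp only [slp, mix_mix]; ring

variable [Fintype ι] [DecidableEq V] {S : MS V ι}

namespace MS

/-- centred over one vertex -/
def CenAt (S : MS V ι) (v : V) : Prop := ∀ i, v ∈ S.fc i → ∀ y, S.p (mix (S.st v) 0 y) i = 0

theorem CenAt.fcn {v : V} (h : S.CenAt v) (q : Finset ι) (y : ι → ℝ) : S.fcn q v y = 0 := by
  have : (fun i : ↥(q ∩ S.st v) => S.p (mix (S.st v) 0 y) i) = 0 :=
    funext fun i => h i (S.mem_st.1 (mem_inter.1 i.2).2) y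
  rw [MS.fcn, this, mulVec_zero]

theorem Ok.hasSum_dual' (h : S.Ok) {v : V} (hc : S.CenAt v) (q : Finset ι) :
    HasSum (fun y => S.wt (q \ S.st v) y * th (S.fg q v (toR y))⁻¹ 0)
      (S.mass q * vl S.G (q \ S.st v)) := by
  have h1 := (h.hasSum_th q v).div_const (vl S.G (q ∩ S.st v))
  have h2 := (vl_pos h.pd (q ∩ S.st v)).ne'
  have h3 := (vl_pos h.pd (q \ S.st v)).ne'
  have h4 : S.mass q * vl S.G (q \ S.st v) = (∑' z, S.wt q z) / vl S.G (q ∩ S.st v) := by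
    rw [mass, h.vl_st q v]; field_simp
  rw [h4]
  refine HasSum.congr_fun h1 fun y => ?_
  rw [hc.fcn, th_zero_eq (h.fg_pos q v _), h.vol_fg]
  field_simp

theorem Ok.hasSum_bias' (h : S.Ok) {v : V} (hc : S.CenAt v) (q : Finset ι) {θ : (ι → ℝ) → ℝ}
    (hθ : Lin (S.st v) θ) :
    HasSum (fun y => ((S.wt (q \ S.st v) y * (vl S.G (q ∩ S.st v) *
        th (S.fg q v (toR y))⁻¹ (S.fsl q v θ (toR y))) : ℝ) : ℂ))
      (∑' z, (S.wt q z : ℂ) * ee (θ (toR z))) := by
  refine HasSum.congr_fun (h.hasSum_fibre_cx q v (F := fun z => ee (θ (toR z)))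
    (h.summable_cx q (C := 1) fun z => (norm_ee _).le)) fun y => ?_
  by_cases hy : S.wt (q \ S.st v) y = 0
  · simp [hy]
  · rw [Complex.ofReal_mul, ← h.vol_fg q v (toR y), ← (hasSum_tw_zero (h.fg_pos q v _) _).tsum_eq]
    congr 2; funext x
    rw [aff_put q v hθ.aff hy, hθ.zero, zero_add, hc.fcn, sub_zero]

theorem Ok.hasSum_bias_re' (h : S.Ok) {v : V} (hc : S.CenAt v) (q : Finset ι)
    {θ : (ι → ℝ) → ℝ} (hθ : Lin (S.st v) θ) :
    HasSum (fun y => S.wt (q \ S.st v) y * (vl S.G (q ∩ S.st v) *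
        th (S.fg q v (toR y))⁻¹ (S.fsl q v θ (toR y)))) (S.bias q θ) := by
  have := Complex.hasSum_re (h.hasSum_bias' hc q hθ)
  rw [h.re_bias] at this
  simpa only [Complex.ofReal_re] using this

theorem Ok.tsum_ee' (h : S.Ok) {v : V} (hc : S.CenAt v) (q : Finset ι) {θ : (ι → ℝ) → ℝ}
    (hθ : Lin (S.st v) θ) : ∑' z, (S.wt q z : ℂ) * ee (θ (toR z)) = (S.bias q θ : ℂ) :=
  (h.hasSum_bias' hc q hθ).unique (Complex.hasSum_ofReal.2 (h.hasSum_bias_re' hc q hθ))

/-- linearisation over one vertex -/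
def ln1 (S : MS V ι) (v : V) : MS V ι :=
  { S with p := fun z i => if v ∈ S.fc i then S.p z i - S.p (mix (S.st v) 0 z) i else S.p z i }

theorem ln1_pos {v : V} {i : ι} (hi : v ∈ S.fc i) (z : ι → ℝ) :
    (S.ln1 v).p z i = S.p z i - S.p (mix (S.st v) 0 z) i := if_pos hi

theorem ln1_neg {v : V} {i : ι} (hi : v ∉ S.fc i) (z : ι → ℝ) : (S.ln1 v).p z i = S.p z i :=
  if_neg hi

theorem Ok.ln1 (h : S.Ok) (v : V) : (S.ln1 v).Ok := by
  refine ⟨h.pd, h.orth, fun i z z' hz => ?_, fun w i hw => ?_⟩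
  · by_cases hi : v ∈ S.fc i
    · rw [ln1_pos hi, ln1_pos hi, h.loc i z z' hz, h.loc i (mix (S.st v) 0 z) (mix (S.st v) 0 z')]
      intro j hj
      simp only [mix, hz j hj]
    · rw [ln1_neg hi, ln1_neg hi, h.loc i z z' hz]
  · by_cases hi : v ∈ S.fc i
    · simp only [ln1_pos hi]
      exact (h.aff w i hw).sub ((h.aff w i hw).kill _)
    · simp only [ln1_neg hi]
      exact h.aff w i hw

theorem cenAt_ln1 (v : V) : (S.ln1 v).CenAt v := fun i hi y => by
  rw [ln1_pos (S := S) hi]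
  change S.p (mix (S.st v) 0 y) i - S.p (mix (S.st v) 0 (mix (S.st v) 0 y)) i = 0
  rw [mix_mix, sub_self]

omit [DecidableEq V] in
theorem wt_congr {S' : MS V ι} (hG : S'.G = S.G) {q : Finset ι}
    (hp : ∀ z, ∀ i ∈ q, S'.p z i = S.p z i) (z : ι → ℤ) : S'.wt q z = S.wt q z := by
  unfold wt
  rw [hG, msk_congr (u := S'.ps z) (w := S.ps z) fun i hi => by
    simp only [ps, Pi.sub_apply, hp _ i hi]]

theorem wt_ln1 (q : Finset ι) (v : V) (z : ι → ℤ) :
    (S.ln1 v).wt (q \ S.st v) z = S.wt (q \ S.st v) z :=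
  wt_congr (S := S) (S' := S.ln1 v) rfl (fun _ _ hi => ln1_neg (fun h => (Finset.mem_sdiff.1 hi).2 (S.mem_st.2 h)) _) z

theorem fg_ln1 (q : Finset ι) (v : V) (y : ι → ℝ) : (S.ln1 v).fg q v y = S.fg q v y := by
  have : blk ((S.ln1 v).lm v y) (q ∩ S.st v) = blk (S.lm v y) (q ∩ S.st v) := by
    ext i j
    have hi := S.mem_st.1 (mem_inter.1 i.2).2
    simp only [blk, lm, submatrix_apply, Matrix.sub_apply, of_apply, ln1_pos hi]
    congr 1
    exact slp_lin_part (S.st v) (fun z => S.p z i) y j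
  change (blk ((S.ln1 v).lm v y) (q ∩ S.st v))ᵀ * blk S.G (q ∩ S.st v) *
    blk ((S.ln1 v).lm v y) (q ∩ S.st v) = _
  rw [this]; rfl

theorem Ok.hasSum_ln1 (h : S.Ok) (q : Finset ι) (v : V) :
    HasSum (fun y => S.wt (q \ S.st v) y * th (S.fg q v (toR y))⁻¹ 0)
      ((S.ln1 v).mass q * vl S.G (q \ S.st v)) := by
  refine HasSum.congr_fun ((h.ln1 v).hasSum_dual' (cenAt_ln1 v) q) fun y => ?_
  rw [← wt_ln1, ← fg_ln1]; rfl

theorem Ok.hasSum_nrm (h : S.Ok) (q : Finset ι) (v : V) :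
    HasSum (fun y => S.wt (q \ S.st v) y *
      (th (S.fg q v (toR y)) (S.fcn q v (toR y)) / vl S.G (q ∩ S.st v)))
      (S.mass q * vl S.G (q \ S.st v)) := by
  have h1 := (h.hasSum_th q v).div_const (vl S.G (q ∩ S.st v))
  have h2 := (vl_pos h.pd (q ∩ S.st v)).ne'
  have h3 := (vl_pos h.pd (q \ S.st v)).ne'
  have h4 : S.mass q * vl S.G (q \ S.st v) = (∑' z, S.wt q z) / vl S.G (q ∩ S.st v) := by
    rw [mass, h.vl_st q v]; field_simp
  rw [h4]
  exact HasSum.congr_fun h1 fun y => by ring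

theorem Ok.abs_nrm_sub (h : S.Ok) (q : Finset ι) (v : V) (y : ι → ℝ) :
    |th (S.fg q v y) (S.fcn q v y) / vl S.G (q ∩ S.st v) - 1| ≤ th (S.fg q v y)⁻¹ 0 - 1 := by
  have h1 := abs_th_sub_vol (h.fg_pos q v y) (S.fcn q v y)
  have h2 := vl_pos h.pd (q ∩ S.st v)
  rw [h.vol_fg] at h1
  rw [div_sub_one h2.ne', abs_div, abs_of_pos h2, div_le_iff₀ h2, mul_comm]
  exact h1

theorem Ok.mass_le_ln1 (h : S.Ok) (q : Finset ι) (v : V) : S.mass q ≤ (S.ln1 v).mass q := by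
  refine le_of_mul_le_mul_right (hasSum_le (fun y => ?_) (h.hasSum_nrm q v) (h.hasSum_ln1 q v))
    (vl_pos h.pd _)
  refine mul_le_mul_of_nonneg_left ?_ (wt_nonneg _ _)
  linarith [(abs_le.1 (h.abs_nrm_sub q v (toR y))).2]

theorem Ok.mass_ge_ln1 (h : S.Ok) (q : Finset ι) (v : V) :
    2 * S.mass (q \ S.st v) - (S.ln1 v).mass q ≤ S.mass q := by
  have h1 := ((h.hasSum_wt (q \ S.st v)).mul_left 2).sub (h.hasSum_ln1 q v)
  refine le_of_mul_le_mul_right ?_ (vl_pos h.pd (q \ S.st v))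
  rw [sub_mul, mul_assoc]
  refine hasSum_le (fun y => ?_) h1 (h.hasSum_nrm q v)
  have := mul_le_mul_of_nonneg_left (abs_le.1 (h.abs_nrm_sub q v (toR y))).1
    (wt_nonneg (S := S) (q \ S.st v) y)
  linarith

/-- removing a vertex against a bounded function of the other variables -/
theorem Ok.norm_del_st (h : S.Ok) (q : Finset ι) (v : V) {f : (ι → ℤ) → ℂ} {C : ℝ}
    (hf : ∀ z, ‖f z‖ ≤ C) (hi : ∀ x y, f (put (q ∩ S.st v) x y) = f y) :
    ‖(∑' z, (S.wt q z : ℂ) * f z) / vl S.G q -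
        (∑' z, (S.wt (q \ S.st v) z : ℂ) * f z) / vl S.G (q \ S.st v)‖ ≤
      C * ((S.ln1 v).mass q - S.mass (q \ S.st v)) := by
  have p1 := vl_pos h.pd (q ∩ S.st v)
  have p2 := vl_pos h.pd (q \ S.st v)
  have n1 : (vl S.G (q ∩ S.st v) : ℂ) ≠ 0 := by exact_mod_cast p1.ne'
  have n2 : (vl S.G (q \ S.st v) : ℂ) ≠ 0 := by exact_mod_cast p2.ne'
  have h1 := ((h.hasSum_fibre_cx q v (h.summable_cx q hf)).div_const
    (vl S.G (q ∩ S.st v) : ℂ)).sub (h.summable_cx (q \ S.st v) hf).hasSum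
  have h2 := ((h.hasSum_ln1 q v).sub (h.hasSum_wt (q \ S.st v))).mul_left C
  have h3 := h1.norm_le_of_bounded h2 fun y => by
    simp only [hi]
    rw [tsum_mul_right, ← Complex.ofReal_tsum]
    have e : (S.wt (q \ S.st v) y : ℂ) * (((∑' x : ↥(q ∩ S.st v) → ℤ, gs (S.fg q v (toR y))
        (toR x - S.fcn q v (toR y)) : ℝ) : ℂ) * f y) / vl S.G (q ∩ S.st v) -
        S.wt (q \ S.st v) y * f y = f y * ((S.wt (q \ S.st v) y * (th (S.fg q v (toR y))
        (S.fcn q v (toR y)) / vl S.G (q ∩ S.st v) - 1) : ℝ) : ℂ) := by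
      rw [th]; push_cast; ring
    rw [e, norm_mul, Complex.norm_real, Real.norm_eq_abs, abs_mul, abs_of_nonneg (wt_nonneg _ _)]
    refine mul_le_mul (hf y) ?_ (mul_nonneg (wt_nonneg _ _) (abs_nonneg _))
      ((norm_nonneg _).trans (hf y))
    have := mul_le_mul_of_nonneg_left (h.abs_nrm_sub q v (toR y))
      (wt_nonneg (S := S) (q \ S.st v) y)
    linarith
  have e2 : (∑' z, (S.wt q z : ℂ) * f z) / vl S.G q -
      (∑' z, (S.wt (q \ S.st v) z : ℂ) * f z) / vl S.G (q \ S.st v) =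
      ((∑' z, (S.wt q z : ℂ) * f z) / vl S.G (q ∩ S.st v) -
        ∑' z, (S.wt (q \ S.st v) z : ℂ) * f z) / vl S.G (q \ S.st v) := by
    rw [h.vl_st q v]; push_cast; field_simp
  rw [e2, norm_div, Complex.norm_real, Real.norm_of_nonneg p2.le, div_le_iff₀ p2]
  refine h3.trans (le_of_eq ?_)
  ring

/-- a phase affine over a vertex is dominated by its linear part -/
theorem Ok.norm_le_bias_ln1 (h : S.Ok) (q : Finset ι) (v : V) {θ : (ι → ℝ) → ℝ}
    (hθ : Aff (S.st v) θ) {f : (ι → ℤ) → ℂ} (hf : ∀ z, ‖f z‖ ≤ 1)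
    (hi : ∀ x y, f (put (q ∩ S.st v) x y) = f y) :
    ‖∑' z, (S.wt q z : ℂ) * (f z * ee (θ (toR z)))‖ ≤
      (S.ln1 v).bias q fun z => θ z - θ (mix (S.st v) 0 z) := by
  have h1 : HasSum (fun y => S.wt (q \ S.st v) y * (vl S.G (q ∩ S.st v) *
      th (S.fg q v (toR y))⁻¹ (S.fsl q v θ (toR y))))
      ((S.ln1 v).bias q fun z => θ z - θ (mix (S.st v) 0 z)) := by
    refine HasSum.congr_fun ((h.ln1 v).hasSum_bias_re' (cenAt_ln1 v) q hθ.lin_part) fun y => ?_
    rw [← wt_ln1, ← fg_ln1]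
    congr 3
    funext j
    exact (slp_lin_part _ _ _ _).symm
  have h0 : ∀ y : ι → ℤ, 0 ≤ vl S.G (q ∩ S.st v) *
      th (S.fg q v (toR y))⁻¹ (S.fsl q v θ (toR y)) :=
    fun y => mul_nonneg (vl_pos h.pd _).le (th_nonneg _ _)
  have hle : ∀ y : ι → ℤ, S.wt (q \ S.st v) y * (‖f y‖ * (vl S.G (q ∩ S.st v) *
      th (S.fg q v (toR y))⁻¹ (S.fsl q v θ (toR y)))) ≤ S.wt (q \ S.st v) y *
      (vl S.G (q ∩ S.st v) * th (S.fg q v (toR y))⁻¹ (S.fsl q v θ (toR y))) := fun y =>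
    mul_le_mul_of_nonneg_left (mul_le_of_le_one_left (h0 y) (hf y)) (wt_nonneg _ _)
  have h2 := h1.summable.of_nonneg_of_le (fun y => mul_nonneg (wt_nonneg _ _)
    (mul_nonneg (norm_nonneg (f y)) (h0 y))) hle
  exact (h.norm_tw_le q v hθ hf hi h2.hasSum).trans (hasSum_le hle h2.hasSum h1)

end MS

end

end Vale.Agent.P057G
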