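import Vale.Agent.P057G.Ms6

/-!
Freezing the variables that miss a set of vertices; transport along relabellings.
-/

open Matrix Finset Filter
open scoped Real Topology
open Vale.Agent.P267.H775

namespace Vale.Agent.P057G

noncomputable section

variable {V ι : Type*} [DecidableEq ι]

/-- series of functions supported on a set of coordinates -/
theorem tsum_put {E : Type*} [AddCommMonoid E] [TopologicalSpace E] (r : Finset ι)
    {g : (ι → ℤ) → E} (hg : ∀ z i, i ∉ r → z i ≠ 0 → g z = 0) :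
    ∑' x : r → ℤ, g (put r x 0) = ∑' z, g z := by
  have hinj : Function.Injective fun x : r → ℤ => put r x (0 : ι → ℤ) := by
    intro x x' h
    funext i
    simpa only [put_coe] using congrFun h i
  refine hinj.tsum_eq (f := g) fun z hz => ⟨fun i => z i, funext fun i => ?_⟩
  by_cases hi : i ∈ r
  · exact put_pos _ _ hi
  · beta_reduce
    rw [show put r (fun i : r => z i) 0 i = 0 from put_neg _ _ hi]
    by_contra h
    exact hz (hg z i hi fun h2 => h h2.symm)

theorem toR_mix (r : Finset ι) (x y : ι → ℤ) : toR (mix r x y) = mix r (toR x) (toR y) := by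
  funext i
  change ((mix r x y i : ℤ) : ℝ) = _
  simp only [mix]; split_ifs <;> rfl

theorem mix_mix_sub {α : Type*} {r s : Finset ι} (h : r ⊆ s) (x y w : ι → α) :
    mix s (mix r x y) w = mix r x (mix s y w) := by
  funext i; simp only [mix]
  by_cases a : i ∈ r
  · simp [a, h a]
  · simp [a]

variable [Fintype ι] [DecidableEq V] {S : MS V ι}

namespace MS

omit [DecidableEq V] in
theorem wt_put_zero (q : Finset ι) (x : q → ℤ) :
    S.wt q (put q x 0) = gs (blk S.G q) fun i => S.ps (put q x 0) i := by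
  have : ∀ i ∉ q, put q x 0 i = 0 := fun i hi => put_neg _ _ hi
  rw [wt, if_pos this, gs_msk]

/-- freeze at `w` all variables whose face misses `L` -/
def frz (S : MS V ι) (L : Finset V) (w : ι → ℝ) : MS V ι where
  fc i := if i ∈ S.sts L then S.fc i ∩ L else S.fc i
  lv := S.lv
  G := S.G
  p z i := if i ∈ S.sts L then S.p (mix (S.sts L) z w) i else 0

theorem frz_fc_pos {L : Finset V} (w : ι → ℝ) {i : ι} (hi : i ∈ S.sts L) :
    (S.frz L w).fc i = S.fc i ∩ L := if_pos hi

theorem frz_fc_neg {L : Finset V} (w : ι → ℝ) {i : ι} (hi : i ∉ S.sts L) :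
    (S.frz L w).fc i = S.fc i := if_neg hi

theorem frz_p_pos {L : Finset V} (w z : ι → ℝ) {i : ι} (hi : i ∈ S.sts L) :
    (S.frz L w).p z i = S.p (mix (S.sts L) z w) i := if_pos hi

theorem frz_p_neg {L : Finset V} (w z : ι → ℝ) {i : ι} (hi : i ∉ S.sts L) :
    (S.frz L w).p z i = 0 := if_neg hi

omit [DecidableEq ι] in
theorem st_subset_sts {L : Finset V} {v : V} (hv : v ∈ L) : S.st v ⊆ S.sts L :=
  fun _ hi => mem_sts.2 ⟨v, hv, S.mem_st.1 hi⟩

theorem frz_st {L : Finset V} (w : ι → ℝ) {v : V} (hv : v ∈ L) : (S.frz L w).st v = S.st v := by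
  ext i
  rw [mem_st, mem_st]
  by_cases hi : i ∈ S.sts L
  · rw [frz_fc_pos w hi, mem_inter]; exact and_iff_left hv
  · rw [frz_fc_neg w hi]

/-- freezing keeps affinity over the live vertices -/
theorem aff_frz {L : Finset V} (w : ι → ℝ) {v : V} (hv : v ∈ L) {θ : (ι → ℝ) → ℝ}
    (h : Aff (S.st v) θ) : Aff ((S.frz L w).st v) fun z => θ (mix (S.sts L) z w) := by
  rw [frz_st w hv]
  intro y
  simp only [mix_mix_sub (st_subset_sts hv)]
  exact h _

theorem lin_frz {L : Finset V} (w : ι → ℝ) {v : V} (hv : v ∈ L) {θ : (ι → ℝ) → ℝ}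
    (h : Lin (S.st v) θ) : Lin ((S.frz L w).st v) fun z => θ (mix (S.sts L) z w) := by
  rw [frz_st w hv]
  intro y
  simp only [mix_mix_sub (st_subset_sts hv)]
  exact h _

theorem Ok.frz (h : S.Ok) (L : Finset V) (w : ι → ℝ) : (S.frz L w).Ok := by
  refine ⟨h.pd, fun i j hij => ⟨?_, (h.orth i j hij).2⟩, fun i z z' hz => ?_, fun v i hv => ?_⟩
  · have e := (h.orth i j hij).1
    have : i ∈ S.sts L ↔ j ∈ S.sts L := by rw [mem_sts, mem_sts, e]
    simp only [MS.frz, this, e]
  · by_cases hi : i ∈ S.sts L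
    · rw [frz_p_pos _ _ hi, frz_p_pos _ _ hi]
      refine h.loc i _ _ fun j hj => ?_
      by_cases hj2 : j ∈ S.sts L
      · rw [mix_pos _ _ hj2, mix_pos _ _ hj2]
        refine hz j ⟨?_, hj.2⟩
        rw [frz_fc_pos w hi, frz_fc_pos w hj2]
        exact inter_subset_inter_right hj.1
      · rw [mix_neg _ _ hj2, mix_neg _ _ hj2]
    · rw [frz_p_neg _ _ hi, frz_p_neg _ _ hi]
  · by_cases hi : i ∈ S.sts L
    · rw [frz_fc_pos w hi, mem_inter] at hv
      simp only [frz_p_pos _ _ hi]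
      exact aff_frz w hv.2 (h.aff v i hv.1)
    · simp only [frz_p_neg _ _ hi]
      exact fun _ => ⟨fun _ _ => by simp, fun _ _ => by simp⟩

theorem Cen.frz (h : S.Cen) (L : Finset V) (w : ι → ℝ) : (S.frz L w).Cen := by
  refine ⟨fun i => ?_, fun v i hv y => ?_⟩
  · by_cases hi : i ∈ S.sts L
    · obtain ⟨v, h1, h2⟩ := mem_sts.1 hi
      exact ⟨v, by rw [frz_fc_pos w hi]; exact mem_inter.2 ⟨h2, h1⟩⟩
    · rw [frz_fc_neg w hi]; exact h.ne i
  · by_cases hi : i ∈ S.sts L
    · rw [frz_fc_pos w hi, mem_inter] at hv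
      rw [frz_p_pos _ _ hi, frz_st w hv.2, mix_mix_sub (st_subset_sts hv.2)]
      exact h.zero v i hv.1 _
    · exact frz_p_neg _ _ hi

theorem Ok.wt_frz (h : S.Ok) (q : Finset ι) (L : Finset V) (y : ι → ℤ)
    (hy : ∀ i ∈ q ∩ S.sts L, y i = 0) (x : ↥(q ∩ S.sts L) → ℤ) :
    S.wt q (put (q ∩ S.sts L) x y) = S.wt (q \ S.sts L) y *
      (S.frz L (toR y)).wt (q ∩ S.sts L) (put (q ∩ S.sts L) x 0) := by
  rw [wt_put h.pd.1 (h.sat_sts L) y hy x]
  · by_cases hz : S.wt (q \ S.sts L) y = 0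
    · rw [hz, zero_mul, zero_mul]
    congr 1
    rw [wt_put_zero]
    congr 1; funext i
    have e : toR (put (q ∩ S.sts L) x y) =
        mix (S.sts L) (toR (put (q ∩ S.sts L) x 0)) (toR y) := by
      rw [← toR_mix]; congr 1; funext j
      by_cases hj : j ∈ S.sts L
      · rw [mix_pos _ _ hj]
        by_cases hq : j ∈ q
        · rw [put_pos _ _ (mem_inter.2 ⟨hq, hj⟩), put_pos _ _ (mem_inter.2 ⟨hq, hj⟩)]
        · rw [put_neg _ _ fun a => hq (mem_inter.1 a).1, put_neg _ _ fun a => hq (mem_inter.1 a).1]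
          by_contra h0
          exact hz (wt_eq_zero (fun a => hq (Finset.mem_sdiff.1 a).1) h0)
      · rw [mix_neg _ _ hj, put_neg _ _ fun a => hj (mem_inter.1 a).2]
    simp only [ps, Pi.sub_apply, frz_p_pos _ _ (mem_inter.1 i.2).2, ← e, toR_apply, put_coe]
  · intro i hi
    refine h.loc i _ _ fun j hj => ?_
    rw [toR_apply, toR_apply, put_neg]
    intro hj2
    obtain ⟨v, h1, h2⟩ := mem_sts.1 (mem_inter.1 hj2).2
    exact (Finset.mem_sdiff.1 hi).2 (mem_sts.2 ⟨v, h1, hj.1 h2⟩)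

/-- summation over the frozen variables last -/
theorem Ok.hasSum_frz (h : S.Ok) (q : Finset ι) (L : Finset V)
    {E : Type*} [NormedAddCommGroup E] [NormedSpace ℝ E] [CompleteSpace E]
    {F : (ι → ℤ) → E} (hF : Summable fun z => S.wt q z • F z) :
    HasSum (fun y => S.wt (q \ S.sts L) y •
        ∑' x, (S.frz L (toR y)).wt (q ∩ S.sts L) x • F (mix (S.sts L) x y))
      (∑' z, S.wt q z • F z) := by
  refine HasSum.congr_fun (hasSum_split (h.wt_frz q L) hF) fun y => ?_
  by_cases hz : S.wt (q \ S.sts L) y = 0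
  · rw [hz, zero_smul, zero_smul]
  congr 1
  rw [← tsum_put (q ∩ S.sts L) fun z i hi h0 => by rw [wt_eq_zero hi h0, zero_smul]]
  congr 1; funext x; congr 2; funext j
  by_cases hj : j ∈ S.sts L
  · rw [mix_pos _ _ hj]
    by_cases hq : j ∈ q
    · rw [put_pos _ _ (mem_inter.2 ⟨hq, hj⟩), put_pos _ _ (mem_inter.2 ⟨hq, hj⟩)]
    · rw [put_neg _ _ fun a => hq (mem_inter.1 a).1, put_neg _ _ fun a => hq (mem_inter.1 a).1]
      by_contra h0
      exact hz (wt_eq_zero (fun a => hq (Finset.mem_sdiff.1 a).1) fun a => h0 a.symm)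
  · rw [mix_neg _ _ hj, put_neg _ _ fun a => hj (mem_inter.1 a).2]

theorem Ok.hasSum_frz_re (h : S.Ok) (q : Finset ι) (L : Finset V)
    {F : (ι → ℤ) → ℝ} (hF : Summable fun z => S.wt q z * F z) :
    HasSum (fun y => S.wt (q \ S.sts L) y *
        ∑' x, (S.frz L (toR y)).wt (q ∩ S.sts L) x * F (mix (S.sts L) x y))
      (∑' z, S.wt q z * F z) := h.hasSum_frz q L (E := ℝ) hF

theorem Ok.hasSum_frz_cx (h : S.Ok) (q : Finset ι) (L : Finset V)
    {F : (ι → ℤ) → ℂ} (hF : Summable fun z => (S.wt q z : ℂ) * F z) :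
    HasSum (fun y => (S.wt (q \ S.sts L) y : ℂ) *
        ∑' x, ((S.frz L (toR y)).wt (q ∩ S.sts L) x : ℂ) * F (mix (S.sts L) x y))
      (∑' z, (S.wt q z : ℂ) * F z) := by
  have := h.hasSum_frz q L (E := ℂ) (F := F) (by simpa only [Complex.real_smul] using hF)
  simpa only [Complex.real_smul] using this

/-- the mean of the frozen masses is the mass -/
theorem Ok.hasSum_mass_frz (h : S.Ok) (q : Finset ι) (L : Finset V) :
    HasSum (fun y => S.wt (q \ S.sts L) y * (S.frz L (toR y)).mass (q ∩ S.sts L))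
      (S.mass q * vl S.G (q \ S.sts L)) := by
  have h1 := (h.hasSum_frz_re q L (F := fun _ => 1)
    (by simpa only [mul_one] using h.summable q)).div_const (vl S.G (q ∩ S.sts L))
  have h2 := (vl_pos h.pd (q ∩ S.sts L)).ne'
  have h3 := (vl_pos h.pd (q \ S.sts L)).ne'
  have h4 : S.mass q * vl S.G (q \ S.sts L) = (∑' z, S.wt q z) / vl S.G (q ∩ S.sts L) := by
    rw [mass, vl_split h.pd (h.sat_sts L) q]; field_simp
  simp only [mul_one] at h1
  rw [h4]
  refine HasSum.congr_fun h1 fun y => ?_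
  rw [mass, mul_div_assoc]; rfl

end MS

/-! ### transport -/

section transport

variable {V' ι' : Type*} [DecidableEq ι'] [Fintype ι'] {S' : MS V' ι'} {q : Finset ι}
  {q' : Finset ι'}

omit [Fintype ι] [Fintype ι'] in
theorem vl_equiv {G : Matrix ι ι ℝ} {G' : Matrix ι' ι' ℝ} (e : q' ≃ q)
    (hG : ∀ i j : q', G' i j = G (e i) (e j)) : vl G' q' = vl G q := by
  unfold vl vol
  rw [← det_submatrix_equiv_self e (blk G q)]
  congr 3
  ext i j; exact hG i j

theorem qq_equiv {κ κ' : Type*} [Fintype κ] [Fintype κ'] (e : κ' ≃ κ) (G : Matrix κ κ ℝ)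
    (x : κ → ℝ) : qq (G.submatrix e e) (fun i => x (e i)) = qq G x := by
  unfold qq
  simp only [dotProduct, mulVec, submatrix_apply]
  rw [← e.sum_comp]
  refine sum_congr rfl fun i _ => ?_
  rw [← e.sum_comp fun j => G (e i) j * x j]

omit [DecidableEq V] in
theorem MS.wt_equiv (e : q' ≃ q) (hG : ∀ i j : q', S'.G i j = S.G (e i) (e j))
    (hp : ∀ (x : q → ℤ) (i : q'), S'.p (toR (put q' (fun j => x (e j)) 0)) i =
      S.p (toR (put q x 0)) (e i)) (x : q → ℤ) :
    S'.wt q' (put q' (fun j => x (e j)) 0) = S.wt q (put q x 0) := by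
  rw [MS.wt_put_zero, MS.wt_put_zero, gs, gs, ← qq_equiv e (blk S.G q)]
  congr 4
  · ext i j; exact hG i j
  · funext i
    simp only [MS.ps, Pi.sub_apply, hp, toR_apply, put_coe]

omit [DecidableEq V] in
/-- transport of weighted series along an isomorphism of subsystems -/
theorem MS.tsum_equiv (e : q' ≃ q) (hG : ∀ i j : q', S'.G i j = S.G (e i) (e j))
    (hp : ∀ (x : q → ℤ) (i : q'), S'.p (toR (put q' (fun j => x (e j)) 0)) i =
      S.p (toR (put q x 0)) (e i))
    {E : Type*} [NormedAddCommGroup E] [NormedSpace ℝ E] {F : (ι → ℤ) → E} {F' : (ι' → ℤ) → E}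
    (hF : ∀ x : q → ℤ, F' (put q' (fun j => x (e j)) 0) = F (put q x 0)) :
    ∑' z, S'.wt q' z • F' z = ∑' z, S.wt q z • F z := by
  rw [← tsum_put q' fun z i hi h0 => by rw [MS.wt_eq_zero hi h0, zero_smul],
    ← tsum_put q fun z i hi h0 => by rw [MS.wt_eq_zero hi h0, zero_smul],
    ← (Equiv.arrowCongr e.symm (Equiv.refl ℤ)).tsum_eq]
  congr 1; funext x
  rw [← MS.wt_equiv e hG hp x, ← hF x]; rfl

omit [DecidableEq V] in
theorem MS.mass_equiv (e : q' ≃ q) (hG : ∀ i j : q', S'.G i j = S.G (e i) (e j))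
    (hp : ∀ (x : q → ℤ) (i : q'), S'.p (toR (put q' (fun j => x (e j)) 0)) i =
      S.p (toR (put q x 0)) (e i)) : S'.mass q' = S.mass q := by
  have := MS.tsum_equiv e hG hp (E := ℝ) (F := fun _ => 1) (F' := fun _ => 1) fun _ => rfl
  simp only [smul_eq_mul, mul_one] at this
  rw [MS.mass, MS.mass, this, vl_equiv e hG]

end transport

end

end Vale.Agent.P057G
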