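import Vale.Agent.P057G.Poi

/-!
Consequences of Poisson summation: positivity, fineness, monotonicity.
-/

open MeasureTheory Complex Matrix Finset
open scoped Real
open Vale.Agent.P267.H775

namespace Vale.Agent.P057G

noncomputable section

variable {ι : Type*} [Fintype ι]

/-- the bilinear form of a Gram matrix -/
def bb (G : Matrix ι ι ℝ) (x y : ι → ℝ) : ℝ := x ⬝ᵥ (G *ᵥ y)

theorem bb_self (G : Matrix ι ι ℝ) (x : ι → ℝ) : bb G x x = qq G x := rfl

theorem bb_comm {G : Matrix ι ι ℝ} (hG : G.IsHermitian) (x y : ι → ℝ) : bb G x y = bb G y x := by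
  have h : Gᵀ = G := by
    have := hG.eq
    rwa [conjTranspose_eq_transpose_of_trivial] at this
  unfold bb
  rw [dotProduct_mulVec, ← mulVec_transpose, h, dotProduct_comm]

theorem qq_add {G : Matrix ι ι ℝ} (hG : G.IsHermitian) (x y : ι → ℝ) :
    qq G (x + y) = qq G x + 2 * bb G x y + qq G y := by
  have := bb_comm hG x y
  unfold qq bb at *
  rw [mulVec_add, add_dotProduct, dotProduct_add, dotProduct_add]
  linarith

theorem qq_sub {G : Matrix ι ι ℝ} (hG : G.IsHermitian) (x y : ι → ℝ) :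
    qq G (x - y) = qq G x - 2 * bb G x y + qq G y := by
  rw [sub_eq_add_neg, qq_add hG, qq_neg]
  simp only [bb, mulVec_neg, dotProduct_neg]
  ring

theorem qq_smul (G : Matrix ι ι ℝ) (c : ℝ) (x : ι → ℝ) : qq G (c • x) = c ^ 2 * qq G x := by
  simp only [qq, mulVec_smul, dotProduct_smul, smul_dotProduct, smul_eq_mul]; ring

theorem qq_smul_mat (G : Matrix ι ι ℝ) (c : ℝ) (x : ι → ℝ) : qq (c • G) x = c * qq G x := by
  simp only [qq, smul_mulVec, dotProduct_smul, smul_eq_mul]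

theorem qq_add_mat (G H : Matrix ι ι ℝ) (x : ι → ℝ) : qq (G + H) x = qq G x + qq H x := by
  simp only [qq, add_mulVec, dotProduct_add]

theorem gs_add_mat (G H : Matrix ι ι ℝ) (x : ι → ℝ) : gs (G + H) x = gs G x * gs H x := by
  unfold gs; rw [← Real.exp_add, qq_add_mat]; congr 1; ring

theorem qq_conj {κ : Type*} [Fintype κ] (G : Matrix ι ι ℝ) (L : Matrix ι κ ℝ) (w : κ → ℝ) :
    qq (Lᵀ * G * L) w = qq G (L *ᵥ w) := by
  unfold qq
  rw [← mulVec_mulVec, ← mulVec_mulVec, dotProduct_mulVec, vecMul_transpose]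

theorem gs_conj {κ : Type*} [Fintype κ] (G : Matrix ι ι ℝ) (L : Matrix ι κ ℝ) (w : κ → ℝ) :
    gs (Lᵀ * G * L) w = gs G (L *ᵥ w) := by
  unfold gs; rw [qq_conj]

theorem gs_mono {G H : Matrix ι ι ℝ} {x y : ι → ℝ} (h : qq G x ≤ qq H y) : gs H y ≤ gs G x := by
  unfold gs
  refine Real.exp_le_exp.2 ?_
  have := Real.pi_pos
  nlinarith

/-- Cauchy-Schwarz for a positive semidefinite Gram matrix -/
theorem bb_sq_le {G : Matrix ι ι ℝ} (hG : G.PosSemidef) (x y : ι → ℝ) :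
    bb G x y ^ 2 ≤ qq G x * qq G y := by
  have h : ∀ t : ℝ, 0 ≤ qq G y * (t * t) + 2 * bb G x y * t + qq G x := by
    intro t
    have h1 := qq_nonneg hG (x + t • y)
    rw [qq_add hG.1, qq_smul] at h1
    have h2 : bb G x (t • y) = t * bb G x y := by
      simp only [bb, mulVec_smul, dotProduct_smul, smul_eq_mul]
    rw [h2] at h1
    nlinarith
  have := discrim_le_zero h
  unfold discrim at this
  nlinarith

theorem th_nonneg (G : Matrix ι ι ℝ) (x : ι → ℝ) : 0 ≤ th G x :=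
  tsum_nonneg fun _ => (gs_pos _ _).le

theorem th_add_toR (G : Matrix ι ι ℝ) (x : ι → ℝ) (n : ι → ℤ) : th G (x + toR n) = th G x := by
  unfold th
  rw [← (Equiv.addRight n).tsum_eq]
  congr 1; funext z
  simp only [Equiv.coe_addRight, toR_add]
  congr 1; abel

theorem th_neg (G : Matrix ι ι ℝ) (x : ι → ℝ) : th G (-x) = th G x := by
  unfold th
  rw [← (Equiv.neg (ι → ℤ)).tsum_eq]
  congr 1; funext z
  simp only [Equiv.neg_apply, toR_neg]
  rw [← gs_neg]; congr 1; abel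

omit [Fintype ι] in
theorem toR_zero : toR (0 : ι → ℤ) = 0 := by funext i; simp

variable [DecidableEq ι]

theorem hasSum_th {G : Matrix ι ι ℝ} (hG : G.PosDef) (x : ι → ℝ) :
    HasSum (fun z : ι → ℤ => gs G (toR z - x)) (th G x) := (summable_gs hG x).hasSum

theorem gs_le_th {G : Matrix ι ι ℝ} (hG : G.PosDef) (x : ι → ℝ) (z : ι → ℤ) :
    gs G (toR z - x) ≤ th G x :=
  (summable_gs hG x).le_tsum z fun _ _ => (gs_pos _ _).le

theorem th_pos {G : Matrix ι ι ℝ} (hG : G.PosDef) (x : ι → ℝ) : 0 < th G x :=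
  (gs_pos _ _).trans_le (gs_le_th hG x 0)

theorem one_le_th_zero {G : Matrix ι ι ℝ} (hG : G.PosDef) : 1 ≤ th G 0 := by
  have := gs_le_th hG 0 0
  rwa [toR_zero, sub_zero, gs_zero] at this

theorem th_mono {G H : Matrix ι ι ℝ} (hG : G.PosDef) (hH : H.PosDef)
    (h : ∀ x, qq G x ≤ qq H x) (x : ι → ℝ) : th H x ≤ th G x :=
  (summable_gs hH x).tsum_le_tsum (fun _ => gs_mono (h _)) (summable_gs hG x)

/-- **Poisson summation** -/
theorem poisson {G : Matrix ι ι ℝ} (hG : G.PosDef) (x : ι → ℝ) :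
    HasSum (fun k : ι → ℤ => ((vol G * gs G⁻¹ (toR k) : ℝ) : ℂ) * ee (toR k ⬝ᵥ x))
      (th G x : ℂ) := by
  have h := poisson_tw hG (-x) 0
  simp only [sub_zero, zero_sub, zero_dotProduct, ee_zero, mul_one, neg_dotProduct,
    dotProduct_neg, neg_neg] at h
  rw [← th_neg, th, Complex.ofReal_tsum]
  exact h

theorem ee_re (t : ℝ) : (ee t).re = Real.cos (2 * π * t) := by
  unfold ee
  have : (2 * π * I * t : ℂ) = ((2 * π * t : ℝ) : ℂ) * I := by push_cast; ring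
  rw [this, Complex.exp_ofReal_mul_I_re]

theorem poisson_re {G : Matrix ι ι ℝ} (hG : G.PosDef) (x : ι → ℝ) :
    HasSum (fun k : ι → ℤ => vol G * gs G⁻¹ (toR k) * Real.cos (2 * π * (toR k ⬝ᵥ x)))
      (th G x) := by
  have h := Complex.hasSum_re (poisson hG x)
  simp only [Complex.re_ofReal_mul, ee_re, Complex.ofReal_re] at h
  exact h

theorem th_zero_eq {G : Matrix ι ι ℝ} (hG : G.PosDef) : th G 0 = vol G * th G⁻¹ 0 := by
  have h := poisson_re hG 0
  simp only [dotProduct_zero, mul_zero, Real.cos_zero, mul_one] at h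
  have h2 := (hasSum_th hG.inv 0).mul_left (vol G)
  simp only [sub_zero] at h2
  exact h.unique h2

/-- the centred mass is at least the volume -/
theorem vol_le_th_zero {G : Matrix ι ι ℝ} (hG : G.PosDef) : vol G ≤ th G 0 := by
  rw [th_zero_eq hG]
  exact le_mul_of_one_le_right (vol_pos hG).le (one_le_th_zero hG.inv)

/-- the twisted sum is bounded by the dual shifted sum -/
theorem norm_tw_le {G : Matrix ι ι ℝ} (hG : G.PosDef) (x ξ : ι → ℝ) :
    ‖∑' z : ι → ℤ, (gs G (toR z - x) : ℂ) * ee (ξ ⬝ᵥ toR z)‖ ≤ vol G * th G⁻¹ ξ := by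
  refine (poisson_tw hG x ξ).norm_le_of_bounded ((hasSum_th hG.inv ξ).mul_left (vol G))
    fun k => ?_
  rw [norm_mul, norm_ee, mul_one, Complex.norm_real,
    Real.norm_of_nonneg (mul_pos (vol_pos hG) (gs_pos _ _)).le]

/-- the centred sum is the largest -/
theorem th_le_th_zero {G : Matrix ι ι ℝ} (hG : G.PosDef) (x : ι → ℝ) : th G x ≤ th G 0 := by
  have h := norm_tw_le hG x 0
  simp only [zero_dotProduct, ee_zero, mul_one] at h
  rw [← Complex.ofReal_tsum, Complex.norm_real, ← th_zero_eq hG] at h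
  exact (le_abs_self _).trans h

/-- fineness -/
theorem abs_th_sub_vol {G : Matrix ι ι ℝ} (hG : G.PosDef) (x : ι → ℝ) :
    |th G x - vol G| ≤ vol G * (th G⁻¹ 0 - 1) := by
  have h1 := poisson_re hG x
  have h2 := (hasSum_th hG.inv 0).mul_left (vol G)
  simp only [sub_zero] at h2
  have h0 : HasSum (fun k : ι → ℤ => if k = 0 then vol G else 0) (vol G) := hasSum_ite_eq 0 _
  have h3 := h1.sub h0
  have h4 := h2.sub h0
  rw [mul_sub, mul_one]
  refine h3.norm_le_of_bounded h4 fun k => ?_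
  split_ifs with hk
  · subst hk
    simp [toR_zero, gs_zero]
  · rw [sub_zero, sub_zero, Real.norm_eq_abs, abs_mul,
      abs_of_pos (mul_pos (vol_pos hG) (gs_pos _ _))]
    exact mul_le_of_le_one_right (mul_pos (vol_pos hG) (gs_pos _ _)).le (Real.abs_cos_le_one _)

theorem mulVec_inv {G : Matrix ι ι ℝ} (hG : G.PosDef) (y : ι → ℝ) : G *ᵥ (G⁻¹ *ᵥ y) = y := by
  rw [mulVec_mulVec, mul_nonsing_inv _ (isUnit_iff_ne_zero.2 hG.det_pos.ne'), one_mulVec]

theorem inv_mulVec {G : Matrix ι ι ℝ} (hG : G.PosDef) (y : ι → ℝ) : G⁻¹ *ᵥ (G *ᵥ y) = y := by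
  rw [mulVec_mulVec, nonsing_inv_mul _ (isUnit_iff_ne_zero.2 hG.det_pos.ne'), one_mulVec]

theorem bb_inv {G : Matrix ι ι ℝ} (hG : G.PosDef) (x y : ι → ℝ) :
    bb G x (G⁻¹ *ᵥ y) = x ⬝ᵥ y := by
  rw [bb, mulVec_inv hG]

theorem qq_inv {G : Matrix ι ι ℝ} (hG : G.PosDef) (y : ι → ℝ) :
    qq G (G⁻¹ *ᵥ y) = qq G⁻¹ y := by
  rw [← bb_self, bb_inv hG, dotProduct_comm]; rfl

/-- duality of the two norms -/
theorem dot_sq_le {G : Matrix ι ι ℝ} (hG : G.PosDef) (x y : ι → ℝ) :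
    (x ⬝ᵥ y) ^ 2 ≤ qq G x * qq G⁻¹ y := by
  rw [← bb_inv hG, ← qq_inv hG]
  exact bb_sq_le hG.posSemidef _ _

/-- inversion reverses the order of the forms -/
theorem qq_inv_anti {G H : Matrix ι ι ℝ} (hG : G.PosDef) (hH : H.PosDef)
    (h : ∀ x, qq G x ≤ qq H x) (y : ι → ℝ) : qq H⁻¹ y ≤ qq G⁻¹ y := by
  have h1 := dot_sq_le hG (H⁻¹ *ᵥ y) y
  have h2 : (H⁻¹ *ᵥ y) ⬝ᵥ y = qq H⁻¹ y := by rw [dotProduct_comm]; rfl
  have h3 := h (H⁻¹ *ᵥ y)
  rw [qq_inv hH] at h3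
  rw [h2] at h1
  have h4 := qq_nonneg hH.inv.posSemidef y
  have h5 := qq_nonneg hG.inv.posSemidef y
  rcases h4.eq_or_lt with h6 | h6
  · rw [← h6]; exact h5
  · have : qq H⁻¹ y * qq H⁻¹ y ≤ qq H⁻¹ y * qq G⁻¹ y := by nlinarith
    exact le_of_mul_le_mul_left this h6

/-- the normalised centred mass grows under narrowing -/
theorem th_inv_mono {G H : Matrix ι ι ℝ} (hG : G.PosDef) (hH : H.PosDef)
    (h : ∀ x, qq G x ≤ qq H x) (ξ : ι → ℝ) : th G⁻¹ ξ ≤ th H⁻¹ ξ :=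
  th_mono hH.inv hG.inv (qq_inv_anti hG hH h) ξ

theorem vol_smul {c : ℝ} (hc : 0 < c) (G : Matrix ι ι ℝ) :
    vol (c • G) = (√c)⁻¹ ^ Fintype.card ι * vol G := by
  unfold vol
  rw [det_smul, Real.sqrt_mul (by positivity), mul_inv, inv_pow]
  congr 2
  rw [Real.sqrt_eq_iff_mul_self_eq (by positivity) (by positivity), ← mul_pow,
    Real.mul_self_sqrt hc.le]

theorem inv_smul_mat {c : ℝ} (hc : c ≠ 0) {G : Matrix ι ι ℝ} (hG : G.PosDef) :
    (c • G)⁻¹ = c⁻¹ • G⁻¹ := by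
  refine Matrix.inv_eq_right_inv ?_
  rw [smul_mul_smul_comm, mul_inv_cancel₀ hc, one_smul,
    mul_nonsing_inv _ (isUnit_iff_ne_zero.2 hG.det_pos.ne')]

/-- widening costs at most the volume factor -/
theorem th_smul_le {c : ℝ} (hc : 0 < c) (hc1 : c ≤ 1) {G : Matrix ι ι ℝ} (hG : G.PosDef)
    (x : ι → ℝ) : th (c • G) x ≤ (√c)⁻¹ ^ Fintype.card ι * th G 0 := by
  have hcG : (c • G).PosDef := hG.smul hc
  refine (th_le_th_zero hcG x).trans ?_
  rw [th_zero_eq hcG, th_zero_eq hG, vol_smul hc, mul_assoc]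
  refine mul_le_mul_of_nonneg_left (mul_le_mul_of_nonneg_left ?_ (vol_pos hG).le) (by positivity)
  refine th_inv_mono hcG hG (fun y => ?_) 0
  rw [qq_smul_mat]
  exact mul_le_of_le_one_left (qq_nonneg hG.posSemidef y) hc1

end

end Vale.Agent.P057G
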